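import Mathlib

/-!
# Row 262, PF (helper19), part 0: six skew forms on a six-dimensional space

* `w ω u v`   : the values `ω_a (u, v)`;
* `wd u v`    : the wedge of two vectors;
* `mn c`      : the `4 × 4` minors of four vectors, indexed by the complementary pair;
* `Phi ω p q` : the Plücker vector of the line `{x | ∑ x_a ω_a vanishes on P + Q}`;
* `NoLine`, `NoConic`, `NoRk2` : the genericity conditions, `.field` : over any field;
* `pf`, `cub ω` : the Pfaffian and the cubic; `noRk2_of_sm`.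
-/

set_option autoImplicit false

open MvPolynomial

noncomputable section

namespace Crest.Agent.X262.Pf19

/-- six bilinear forms -/
abbrev Om : Type := Fin 6 → Fin 6 → Fin 6 → ℂ

/-- the forms are skew -/
def Skew (ω : Om) : Prop := ∀ a i j, ω a j i = -ω a i j

variable {R R' : Type} [CommRing R] [Algebra ℂ R] [CommRing R'] [Algebra ℂ R'] {ω : Om}

/-- the values of the six forms -/
def w (ω : Om) : (Fin 6 → R) →ₗ[R] (Fin 6 → R) →ₗ[R] Fin 6 → R :=
  LinearMap.mk₂ R (fun u v a => ∑ i, ∑ j, ω a i j • (u i * v j))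
    (fun u u' v => by ext a; simp [add_mul, Finset.sum_add_distrib])
    (fun c u v => by ext a; simp [Finset.mul_sum, mul_assoc])
    (fun u v v' => by ext a; simp [mul_add, Finset.sum_add_distrib])
    (fun c u v => by ext a; simp [Finset.mul_sum, mul_left_comm c])

theorem w_apply (u v : Fin 6 → R) (a : Fin 6) : w ω u v a = ∑ i, ∑ j, ω a i j • (u i * v j) := rfl

theorem map_w (f : R →ₐ[ℂ] R') (u v : Fin 6 → R) : f ∘ w ω u v = w ω (f ∘ u) (f ∘ v) := by
  ext a
  simp [w_apply]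

theorem Skew.swap (h : Skew ω) (u v : Fin 6 → R) : w ω v u = -w ω u v := by
  ext a
  rw [Pi.neg_apply, w_apply, w_apply, Finset.sum_comm, ← Finset.sum_neg_distrib]
  refine Finset.sum_congr rfl fun i _ => ?_
  rw [← Finset.sum_neg_distrib]
  exact Finset.sum_congr rfl fun j _ => by rw [h, neg_smul, mul_comm]

theorem Skew.self (h : Skew ω) (u : Fin 6 → R) : w ω u u = 0 := by
  have h1 : (2 : ℂ) • w ω u u = 0 := by rw [two_smul, add_eq_zero_iff_eq_neg]; exact h.swap u u
  rw [← one_smul ℂ (w ω u u), show (1 : ℂ) = 2⁻¹ * 2 by norm_num, mul_smul, h1, smul_zero]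

/-- the wedge of two vectors -/
def wd {A ι : Type} [CommRing A] (u v : ι → A) : ι × ι → A :=
  fun ij => u ij.1 * v ij.2 - u ij.2 * v ij.1

/-- determinants with two free rows -/
def dt (A : Type) [CommRing A] {n : ℕ} : (Fin (n + 2) → A) →ₗ[A] (Fin (n + 2) → A) →ₗ[A]
    (Fin (n + 2) → A) [⋀^Fin n]→ₗ[A] A :=
  AlternatingMap.curryLeftLinearMap ∘ₗ
    (Matrix.detRowAlternating (n := Fin (n + 2)) (R := A)).curryLeft

theorem dt_apply {A : Type} [CommRing A] {n : ℕ} (u v : Fin (n + 2) → A)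
    (c : Fin n → Fin (n + 2) → A) :
    dt A u v c = (Matrix.of (Matrix.vecCons u (Matrix.vecCons v c))).det := rfl

theorem dt_eq_sum {A : Type} [CommRing A] {n : ℕ} (u v : Fin (n + 2) → A)
    (c : Fin n → Fin (n + 2) → A) :
    dt A u v c = ∑ a, ∑ b, u a * v b * dt A (Pi.single a 1) (Pi.single b 1) c := by
  let B : (Fin (n + 2) → A) →ₗ[A] (Fin (n + 2) → A) →ₗ[A] A := (dt A).compr₂
    { toFun := fun f => f c, map_add' := fun _ _ => rfl, map_smul' := fun _ _ => rfl }
  change B u v = ∑ a, ∑ b, u a * v b * B (Pi.single a 1) (Pi.single b 1)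
  conv_lhs => rw [pi_eq_sum_univ' u, pi_eq_sum_univ' v]
  simp only [map_sum, map_smul, LinearMap.sum_apply, LinearMap.smul_apply, smul_eq_mul,
    Finset.mul_sum]
  rw [Finset.sum_comm]
  exact Finset.sum_congr rfl fun a _ => Finset.sum_congr rfl fun b _ => by ring

/-- the minors of four vectors -/
def mn {A : Type} [CommRing A] {n : ℕ} (c : Fin n → Fin (n + 2) → A) :
    Fin (n + 2) × Fin (n + 2) → A := fun ab => dt A (Pi.single ab.1 1) (Pi.single ab.2 1) c

theorem map_mn {A B : Type} [CommRing A] [CommRing B] (f : A →+* B) {n : ℕ}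
    (c : Fin n → Fin (n + 2) → A) : f ∘ mn c = mn fun i => f ∘ c i := by
  ext ab
  rw [Function.comp_apply, mn, mn, dt_apply, dt_apply, f.map_det]
  congr 1
  ext i j
  refine Fin.cases ?_ (fun i => Fin.cases ?_ (fun i => rfl) i) i <;>
    simp [Pi.single_apply, apply_ite f]

theorem alt_mul {A M : Type} [CommRing A] [AddCommGroup M] [Module A M] {n : ℕ}
    (f : M [⋀^Fin n]→ₗ[A] A) (T : Matrix (Fin n) (Fin n) A) (c : Fin n → M) :
    f (fun i => ∑ j, T i j • c j) = T.det * f c := by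
  have h := DFunLike.congr_fun
    ((f.compLinearMap (Fintype.linearCombination A c)).eq_smul_basis_det (Pi.basisFun A _))
    (Matrix.of.symm T)
  rw [AlternatingMap.smul_apply, Pi.basisFun_det_apply, smul_eq_mul, mul_comm] at h
  refine h.trans ?_
  congr 1
  simp

theorem mn_mul {A : Type} [CommRing A] {n : ℕ} (T : Matrix (Fin n) (Fin n) A)
    (c : Fin n → Fin (n + 2) → A) :
    mn (fun i => ∑ j, T i j • c j) = T.det • mn c := funext fun _ => alt_mul _ T c

theorem exists_dt_ne {K : Type} [Field K] {n : ℕ} {c : Fin n → Fin (n + 2) → K}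
    (h : LinearIndependent K c) : ∃ a b, dt K (Pi.single a 1) (Pi.single b 1) c ≠ 0 := by
  obtain ⟨v, hv⟩ := exists_linearIndependent_cons_of_lt_finrank h (by simp)
  obtain ⟨u, hu⟩ := exists_linearIndependent_cons_of_lt_finrank hv (by simp)
  by_contra! hc
  have h2 : dt K u v c = 0 := by
    rw [dt_eq_sum]
    exact Finset.sum_eq_zero fun a _ => Finset.sum_eq_zero fun b _ =>
      mul_eq_zero_of_right _ (hc a b)
  rw [dt_apply] at h2
  exact ((Matrix.isUnit_iff_isUnit_det _).1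
    (Matrix.linearIndependent_rows_iff_isUnit.1 hu)).ne_zero h2

theorem exists_mn_ne {K : Type} [Field K] {n : ℕ} {c : Fin n → Fin (n + 2) → K}
    (h : LinearIndependent K c) : ∃ ab, mn c ab ≠ 0 :=
  let ⟨a, b, h1⟩ := exists_dt_ne h
  ⟨(a, b), h1⟩

/-- the four vectors `ω (p_i, q_j)` -/
def c4 (ω : Om) (p q : Fin 2 → Fin 6 → R) : Fin 4 → Fin 6 → R :=
  ![w ω (p 0) (q 0), w ω (p 0) (q 1), w ω (p 1) (q 0), w ω (p 1) (q 1)]

/-- the Plücker vector of the line attached to two planes -/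
def Phi (ω : Om) (p q : Fin 2 → Fin 6 → R) : Fin 6 × Fin 6 → R := mn (n := 4) (c4 ω p q)

theorem map_Phi (f : R →ₐ[ℂ] R') (p q : Fin 2 → Fin 6 → R) :
    f ∘ Phi ω p q = Phi ω (fun i => f ∘ p i) fun i => f ∘ q i := by
  refine (map_mn (n := 4) f.toRingHom _).trans (congrArg (mn (n := 4)) (funext fun i => ?_))
  fin_cases i <;> exact map_w f _ _

/-- the six vectors `ω (k_i, k_j)` -/
def cols (ω : Om) (k : Fin 4 → Fin 6 → R) : Fin 6 → Fin 6 → R :=
  ![w ω (k 0) (k 1), w ω (k 0) (k 2), w ω (k 0) (k 3), w ω (k 1) (k 2), w ω (k 1) (k 3),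
    w ω (k 2) (k 3)]

theorem map_cols (f : R →ₐ[ℂ] R') (k : Fin 4 → Fin 6 → R) (j : Fin 6) :
    f ∘ cols ω k j = cols ω (fun i => f ∘ k i) j := by
  fin_cases j <;> exact map_w f _ _

variable (ω R)

/-- the surface contains no line -/
def NoLine : Prop := ∀ u : Fin 3 → Fin 6 → R, w ω (u 0) (u 1) = 0 → w ω (u 0) (u 2) = 0 →
  ¬ LinearIndependent R u

/-- the surface contains no conic: `W ∩ Λ² K` has dimension at most two -/
def NoConic : Prop := ∀ k : Fin 4 → Fin 6 → R, LinearIndependent R k →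
  ∀ β : Fin 3 → Fin 6 → R, (∀ l, ∑ j, β l j • cols ω k j = 0) → ¬ LinearIndependent R β

/-- every member of the family has rank at least four -/
def NoRk2 : Prop := ∀ x : Fin 6 → R, x ≠ 0 → ∀ u : Fin 3 → Fin 6 → R,
  (∀ l v, x ⬝ᵥ w ω (u l) v = 0) → ¬ LinearIndependent R u

variable {ω R}

section field

variable {K : Type} [Field K]

theorem li_iff {m n : Type} [Fintype m] [Fintype n] [DecidableEq m] {U : Matrix m n K} :
    LinearIndependent K (fun i => U i) ↔ ∃ M : Matrix n m K, U * M = 1 := by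
  classical
  refine ⟨fun h => ?_, fun ⟨M, hM⟩ => Matrix.vecMul_injective_iff.1 fun x y h => ?_⟩
  · obtain ⟨g, hg⟩ := U.vecMulLinear.exists_leftInverse_of_injective
      (LinearMap.ker_eq_bot.2 (Matrix.vecMul_injective_iff.2 h))
    refine ⟨LinearMap.toMatrixRight' g, Matrix.toLinearMapRight'.injective ?_⟩
    rw [Matrix.toLinearMapRight'_mul, Matrix.toLinearMapRight'_one, ← hg]
    congr 1
    exact LinearMap.toMatrixRight'.symm_apply_apply g
  · have h1 := congrArg (Matrix.vecMul · M) h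
    simpa [hM] using h1

variable [Algebra ℂ K]

theorem exists_pt (A : Type) [CommRing A] [Nontrivial A] [Algebra ℂ A] [Algebra.FiniteType ℂ A] :
    Nonempty (A →ₐ[ℂ] ℂ) := by
  obtain ⟨M, hM⟩ := Ideal.exists_maximal A
  let _ : Field (A ⧸ M) := Ideal.Quotient.field M
  have : Module.Finite ℂ (A ⧸ M) := finite_of_finite_type_of_isJacobsonRing _ _
  exact ⟨(IsAlgClosed.lift (R := ℂ)).comp (Ideal.Quotient.mkₐ ℂ M)⟩

theorem exists_spec {s : Set K} (hs : s.Finite) :
    ∃ C : Subalgebra ℂ K, s ⊆ C ∧ Nonempty (C →ₐ[ℂ] ℂ) :=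
  have : Algebra.FiniteType ℂ (Algebra.adjoin ℂ s) := .adjoin_of_finite hs
  ⟨_, Algebra.subset_adjoin, exists_pt _⟩

/-- specialisation of two independent families -/
theorem exists_spec₂ {m m' n : Type} [Fintype m] [Fintype m'] [Fintype n] {U : m → n → K}
    {U' : m' → n → K} (h : LinearIndependent K U) (h' : LinearIndependent K U') :
    ∃ (C : Subalgebra ℂ K) (χ : C →ₐ[ℂ] ℂ) (V : m → n → C) (V' : m' → n → C),
      (∀ i, C.val ∘ V i = U i) ∧ (∀ i, C.val ∘ V' i = U' i) ∧
      LinearIndependent ℂ (fun i => χ ∘ V i) ∧ LinearIndependent ℂ fun i => χ ∘ V' i := by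
  classical
  obtain ⟨M, hM⟩ := (li_iff (U := Matrix.of U)).1 h
  obtain ⟨M', hM'⟩ := (li_iff (U := Matrix.of U')).1 h'
  obtain ⟨C, hC, ⟨χ⟩⟩ := exists_spec ((((Set.finite_range (Function.uncurry U)).union
    (Set.finite_range (Function.uncurry M))).union (Set.finite_range (Function.uncurry U'))).union
    (Set.finite_range (Function.uncurry M')))
  have key : ∀ {m : Type} [Fintype m] [DecidableEq m] (U : Matrix m n K) (M : Matrix n m K),
      U * M = 1 → (∀ i j, U i j ∈ C) → (∀ i j, M i j ∈ C) → ∃ V : m → n → C,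
        (∀ i, C.val ∘ V i = U i) ∧ LinearIndependent ℂ fun i => χ ∘ V i := by
    intro m _ _ U M e h1 h2
    let V : Matrix m n C := Matrix.of fun i j => ⟨U i j, h1 i j⟩
    let N : Matrix n m C := Matrix.of fun i j => ⟨M i j, h2 i j⟩
    have h3 : V * N = 1 := Matrix.map_injective (f := C.val) Subtype.val_injective (by
      change (V * N).map C.val = (1 : Matrix m m C).map C.val
      rw [Matrix.map_mul, Matrix.map_one _ (map_zero _) (map_one _)]
      exact e)
    refine ⟨V, fun _ => rfl, (li_iff (U := V.map χ)).2 ⟨N.map χ, ?_⟩⟩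
    rw [← Matrix.map_mul, h3, Matrix.map_one _ (map_zero _) (map_one _)]
  obtain ⟨V, h1, h2⟩ := key _ M hM (fun i j => hC (.inl (.inl (.inl ⟨(i, j), rfl⟩))))
    fun i j => hC (.inl (.inl (.inr ⟨(i, j), rfl⟩)))
  obtain ⟨V', h3, h4⟩ := key _ M' hM' (fun i j => hC (.inl (.inr ⟨(i, j), rfl⟩)))
    fun i j => hC (.inr ⟨(i, j), rfl⟩)
  exact ⟨C, χ, V, V', h1, h3, h2, h4⟩

theorem spec_zero {C : Subalgebra ℂ K} (χ : C →ₐ[ℂ] ℂ) {ι : Type} {x : ι → C}
    (h : C.val ∘ x = 0) : χ ∘ x = 0 := by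
  ext i
  have : x i = 0 := Subtype.ext (congrFun h i)
  simp [this]

variable (K)

theorem NoLine.field (h : NoLine ℂ ω) : NoLine K ω := fun u h1 h2 hu => by
  obtain ⟨C, χ, V, -, e, -, hV, -⟩ := exists_spec₂ hu hu
  refine h (fun i => χ ∘ V i) ?_ ?_ hV <;> rw [← map_w] <;> refine spec_zero χ ?_ <;>
    rw [map_w, e, e] <;> assumption

theorem NoConic.field (h : NoConic ℂ ω) : NoConic K ω := fun k hk β h1 hβ => by
  obtain ⟨C, χ, V, B, e, e', hV, hB⟩ := exists_spec₂ hk hβ
  have key : ∀ {R' : Type} [CommRing R'] [Algebra ℂ R'] (f : C →ₐ[ℂ] R') (l : Fin 3),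
      f ∘ (∑ j, B l j • cols ω V j) = ∑ j, (f ∘ B l) j • cols ω (fun i => f ∘ V i) j := by
    intro R' _ _ f l
    ext a
    simp [← map_cols]
  refine h _ hV _ (fun l => ?_) hB
  rw [← key]
  refine spec_zero χ ?_
  rw [key, e', funext e]
  exact h1 l

theorem NoRk2.field (h : NoRk2 ℂ ω) : NoRk2 K ω := fun x hx u h1 hu => by
  obtain ⟨C, χ, V, X, e, e', hV, hX⟩ := exists_spec₂ hu
    (linearIndependent_unique_iff (v := fun _ : Unit => x).2 hx)
  refine h _ (hX.ne_zero ()) _ (fun l v => ?_) hV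
  have h2 : X () ⬝ᵥ w ω (V l) (algebraMap ℂ C ∘ v) = 0 := Subtype.ext (by
    refine (RingHom.map_dotProduct C.val.toRingHom (X ()) _).trans ?_
    change C.val ∘ X () ⬝ᵥ C.val ∘ _ = (0 : K)
    rw [map_w, e, e']
    exact h1 l _)
  have h3 := congrArg χ h2
  rw [map_zero] at h3
  rw [← h3]
  refine Eq.trans ?_ (RingHom.map_dotProduct χ.toRingHom _ _).symm
  change _ = χ ∘ X () ⬝ᵥ χ ∘ _
  rw [map_w]
  congr 2
  ext i
  simp

end field

end Crest.Agent.X262.Pf19
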