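import Crest.Agent.X262.Pf19.Defs

/-!
# Row 262, PF (helper19), part 1: the Pfaffian cubic

* `pf`, `cub ω`  : the Pfaffian and the cubic;
* `aeval_cub_eq_zero` : a degenerate member of the family lies on the cubic;
* `noRk2_of_sm`  : a smooth Pfaffian cubic contains no form of rank two.
-/

set_option autoImplicit false

open MvPolynomial

noncomputable section

namespace Crest.Agent.X262.Pf19

variable {A : Type} [CommRing A]

/-- the Pfaffian -/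
def pf (M : Fin 6 → Fin 6 → A) : A :=
  M 0 1 * (M 2 3 * M 4 5 - M 2 4 * M 3 5 + M 2 5 * M 3 4)
  - M 0 2 * (M 1 3 * M 4 5 - M 1 4 * M 3 5 + M 1 5 * M 3 4)
  + M 0 3 * (M 1 2 * M 4 5 - M 1 4 * M 2 5 + M 1 5 * M 2 4)
  - M 0 4 * (M 1 2 * M 3 5 - M 1 3 * M 2 5 + M 1 5 * M 2 3)
  + M 0 5 * (M 1 2 * M 3 4 - M 1 3 * M 2 4 + M 1 4 * M 2 3)

theorem pf_mul {M : Fin 6 → Fin 6 → A} (hs : ∀ i j, M j i = -M i j) (h0 : ∀ i, M i i = 0)
    {v : Fin 6 → A} (hv : ∀ l, ∑ m, M l m * v m = 0) (k : Fin 6) : pf M * v k = 0 := by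
  have r0 := hv 0
  have r1 := hv 1
  have r2 := hv 2
  have r3 := hv 3
  have r4 := hv 4
  have r5 := hv 5
  simp only [Fin.sum_univ_six, h0, hs 0 1, hs 0 2, hs 0 3, hs 0 4, hs 0 5, hs 1 2, hs 1 3, hs 1 4,
    hs 1 5, hs 2 3, hs 2 4, hs 2 5, hs 3 4, hs 3 5, hs 4 5] at r0 r1 r2 r3 r4 r5
  have k0 : pf M * v 0 = 0 := by
    unfold pf
    linear_combination 0 * r0
      - (M 2 3 * M 4 5 - M 2 4 * M 3 5 + M 2 5 * M 3 4) * r1
      + (M 1 3 * M 4 5 - M 1 4 * M 3 5 + M 1 5 * M 3 4) * r2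
      - (M 1 2 * M 4 5 - M 1 4 * M 2 5 + M 1 5 * M 2 4) * r3
      + (M 1 2 * M 3 5 - M 1 3 * M 2 5 + M 1 5 * M 2 3) * r4
      - (M 1 2 * M 3 4 - M 1 3 * M 2 4 + M 1 4 * M 2 3) * r5
  have k1 : pf M * v 1 = 0 := by
    unfold pf
    linear_combination 0 * r0
      + (M 2 3 * M 4 5 - M 2 4 * M 3 5 + M 2 5 * M 3 4) * r0
      - (M 0 3 * M 4 5 - M 0 4 * M 3 5 + M 0 5 * M 3 4) * r2
      + (M 0 2 * M 4 5 - M 0 4 * M 2 5 + M 0 5 * M 2 4) * r3
      - (M 0 2 * M 3 5 - M 0 3 * M 2 5 + M 0 5 * M 2 3) * r4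
      + (M 0 2 * M 3 4 - M 0 3 * M 2 4 + M 0 4 * M 2 3) * r5
  have k2 : pf M * v 2 = 0 := by
    unfold pf
    linear_combination 0 * r0
      - (M 1 3 * M 4 5 - M 1 4 * M 3 5 + M 1 5 * M 3 4) * r0
      + (M 0 3 * M 4 5 - M 0 4 * M 3 5 + M 0 5 * M 3 4) * r1
      - (M 0 1 * M 4 5 - M 0 4 * M 1 5 + M 0 5 * M 1 4) * r3
      + (M 0 1 * M 3 5 - M 0 3 * M 1 5 + M 0 5 * M 1 3) * r4
      - (M 0 1 * M 3 4 - M 0 3 * M 1 4 + M 0 4 * M 1 3) * r5
  have k3 : pf M * v 3 = 0 := by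
    unfold pf
    linear_combination 0 * r0
      + (M 1 2 * M 4 5 - M 1 4 * M 2 5 + M 1 5 * M 2 4) * r0
      - (M 0 2 * M 4 5 - M 0 4 * M 2 5 + M 0 5 * M 2 4) * r1
      + (M 0 1 * M 4 5 - M 0 4 * M 1 5 + M 0 5 * M 1 4) * r2
      - (M 0 1 * M 2 5 - M 0 2 * M 1 5 + M 0 5 * M 1 2) * r4
      + (M 0 1 * M 2 4 - M 0 2 * M 1 4 + M 0 4 * M 1 2) * r5
  have k4 : pf M * v 4 = 0 := by
    unfold pf
    linear_combination 0 * r0
      - (M 1 2 * M 3 5 - M 1 3 * M 2 5 + M 1 5 * M 2 3) * r0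
      + (M 0 2 * M 3 5 - M 0 3 * M 2 5 + M 0 5 * M 2 3) * r1
      - (M 0 1 * M 3 5 - M 0 3 * M 1 5 + M 0 5 * M 1 3) * r2
      + (M 0 1 * M 2 5 - M 0 2 * M 1 5 + M 0 5 * M 1 2) * r3
      - (M 0 1 * M 2 3 - M 0 2 * M 1 3 + M 0 3 * M 1 2) * r5
  have k5 : pf M * v 5 = 0 := by
    unfold pf
    linear_combination 0 * r0
      + (M 1 2 * M 3 4 - M 1 3 * M 2 4 + M 1 4 * M 2 3) * r0
      - (M 0 2 * M 3 4 - M 0 3 * M 2 4 + M 0 4 * M 2 3) * r1
      + (M 0 1 * M 3 4 - M 0 3 * M 1 4 + M 0 4 * M 1 3) * r2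
      - (M 0 1 * M 2 4 - M 0 2 * M 1 4 + M 0 4 * M 1 2) * r3
      + (M 0 1 * M 2 3 - M 0 2 * M 1 3 + M 0 3 * M 1 2) * r4
  fin_cases k
  exacts [k0, k1, k2, k3, k4, k5]

/-- the embedding of the complement of a pair -/
def cpl (i : Fin 6) (j : Fin 5) (a : Fin 4) : Fin 6 := i.succAbove (j.succAbove a)

/-- the Pfaffians of order four -/
def sub (M : Fin 6 → Fin 6 → A) (i : Fin 6) (j : Fin 5) : A :=
  M (cpl i j 0) (cpl i j 1) * M (cpl i j 2) (cpl i j 3) -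
    M (cpl i j 0) (cpl i j 2) * M (cpl i j 1) (cpl i j 3) +
      M (cpl i j 0) (cpl i j 3) * M (cpl i j 1) (cpl i j 2)

theorem sub_mul {M : Fin 6 → Fin 6 → A} (hs : ∀ i j, M j i = -M i j) (h0 : ∀ i, M i i = 0)
    {v : Fin 6 → A} (hv : ∀ l, ∑ m, M l m * v m = 0) {i : Fin 6} {j : Fin 5} (hi : v i = 0)
    (hj : v (i.succAbove j) = 0) (k : Fin 6) : sub M i j * v k = 0 := by
  have r : ∀ a, ∑ b, M (cpl i j a) (cpl i j b) * v (cpl i j b) = 0 := fun a => by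
    have h := hv (cpl i j a)
    rwa [Fin.sum_univ_succAbove _ i, Fin.sum_univ_succAbove _ j, hi, hj, mul_zero, mul_zero,
      zero_add, zero_add] at h
  have r0 := r 0
  have r1 := r 1
  have r2 := r 2
  have r3 := r 3
  simp only [Fin.sum_univ_four, h0, hs (cpl i j 0) (cpl i j 1), hs (cpl i j 0) (cpl i j 2),
    hs (cpl i j 0) (cpl i j 3), hs (cpl i j 1) (cpl i j 2), hs (cpl i j 1) (cpl i j 3),
    hs (cpl i j 2) (cpl i j 3)] at r0 r1 r2 r3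
  refine Fin.succAboveCases i (by rw [hi, mul_zero])
    (fun k => Fin.succAboveCases j (by rw [hj, mul_zero]) (fun a => ?_) k) k
  change sub M i j * v (cpl i j a) = 0
  unfold sub
  set a0 := cpl i j 0
  set a1 := cpl i j 1
  set a2 := cpl i j 2
  set a3 := cpl i j 3
  have k0 : (M a0 a1 * M a2 a3 - M a0 a2 * M a1 a3 + M a0 a3 * M a1 a2) * v a0 = 0 := by
    linear_combination -M a2 a3 * r1 + M a1 a3 * r2 - M a1 a2 * r3
  have k1 : (M a0 a1 * M a2 a3 - M a0 a2 * M a1 a3 + M a0 a3 * M a1 a2) * v a1 = 0 := by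
    linear_combination M a2 a3 * r0 - M a0 a3 * r2 + M a0 a2 * r3
  have k2 : (M a0 a1 * M a2 a3 - M a0 a2 * M a1 a3 + M a0 a3 * M a1 a2) * v a2 = 0 := by
    linear_combination -M a1 a3 * r0 + M a0 a3 * r1 - M a0 a1 * r3
  have k3 : (M a0 a1 * M a2 a3 - M a0 a2 * M a1 a3 + M a0 a3 * M a1 a2) * v a3 = 0 := by
    linear_combination M a1 a2 * r0 - M a0 a2 * r1 + M a0 a1 * r2
  fin_cases a
  exacts [k0, k1, k2, k3]

theorem der_pf {B : Type} [CommRing B] [Algebra ℂ A] (D : Derivation ℂ A A) (f : A →+* B)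
    {M : Fin 6 → Fin 6 → A} (h : ∀ i j, f (sub M i j) = 0) : f (D (pf M)) = 0 ∧ f (pf M) = 0 := by
  have h01 : f (M 2 3 * M 4 5 - M 2 4 * M 3 5 + M 2 5 * M 3 4) = 0 := h 0 0
  have h02 : f (M 1 3 * M 4 5 - M 1 4 * M 3 5 + M 1 5 * M 3 4) = 0 := h 0 1
  have h03 : f (M 1 2 * M 4 5 - M 1 4 * M 2 5 + M 1 5 * M 2 4) = 0 := h 0 2
  have h04 : f (M 1 2 * M 3 5 - M 1 3 * M 2 5 + M 1 5 * M 2 3) = 0 := h 0 3
  have h05 : f (M 1 2 * M 3 4 - M 1 3 * M 2 4 + M 1 4 * M 2 3) = 0 := h 0 4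
  have h12 : f (M 0 3 * M 4 5 - M 0 4 * M 3 5 + M 0 5 * M 3 4) = 0 := h 1 1
  have h13 : f (M 0 2 * M 4 5 - M 0 4 * M 2 5 + M 0 5 * M 2 4) = 0 := h 1 2
  have h14 : f (M 0 2 * M 3 5 - M 0 3 * M 2 5 + M 0 5 * M 2 3) = 0 := h 1 3
  have h15 : f (M 0 2 * M 3 4 - M 0 3 * M 2 4 + M 0 4 * M 2 3) = 0 := h 1 4
  have h23 : f (M 0 1 * M 4 5 - M 0 4 * M 1 5 + M 0 5 * M 1 4) = 0 := h 2 2
  have h24 : f (M 0 1 * M 3 5 - M 0 3 * M 1 5 + M 0 5 * M 1 3) = 0 := h 2 3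
  have h25 : f (M 0 1 * M 3 4 - M 0 3 * M 1 4 + M 0 4 * M 1 3) = 0 := h 2 4
  have h34 : f (M 0 1 * M 2 5 - M 0 2 * M 1 5 + M 0 5 * M 1 2) = 0 := h 3 3
  have h35 : f (M 0 1 * M 2 4 - M 0 2 * M 1 4 + M 0 4 * M 1 2) = 0 := h 3 4
  have h45 : f (M 0 1 * M 2 3 - M 0 2 * M 1 3 + M 0 3 * M 1 2) = 0 := h 4 4
  simp only [map_add, map_sub, map_mul] at h01 h02 h03 h04 h05 h12 h13 h14 h15 h23 h24 h25 h34 h35 h45
  simp only [pf, map_add, map_sub, map_mul, Derivation.leibniz, smul_eq_mul]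
  constructor
  · linear_combination 0 * h01
      + f (D (M 0 1)) * h01 - f (D (M 0 2)) * h02 + f (D (M 0 3)) * h03
      - f (D (M 0 4)) * h04 + f (D (M 0 5)) * h05 + f (D (M 1 2)) * h12
      - f (D (M 1 3)) * h13 + f (D (M 1 4)) * h14 - f (D (M 1 5)) * h15
      + f (D (M 2 3)) * h23 - f (D (M 2 4)) * h24 + f (D (M 2 5)) * h25
      + f (D (M 3 4)) * h34 - f (D (M 3 5)) * h35 + f (D (M 4 5)) * h45
  · linear_combination f (M 0 1) * h01 - f (M 0 2) * h02 + f (M 0 3) * h03 - f (M 0 4) * h04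
      + f (M 0 5) * h05

theorem map_pf {B : Type} [CommRing B] (f : A →+* B) (M : Fin 6 → Fin 6 → A) :
    f (pf M) = pf fun i j => f (M i j) := by simp [pf]

theorem map_sub' {B : Type} [CommRing B] (f : A →+* B) (M : Fin 6 → Fin 6 → A) (i : Fin 6)
    (j : Fin 5) : f (sub M i j) = sub (fun i j => f (M i j)) i j := by simp [sub]

variable [Algebra ℂ A] {ω : Om}

/-- the member `∑ x_a ω_a` of the family -/
def mem (ω : Om) (x : Fin 6 → A) (i j : Fin 6) : A := ∑ a, ω a i j • x a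

theorem map_mem {B : Type} [CommRing B] [Algebra ℂ B] (f : A →ₐ[ℂ] B) (x : Fin 6 → A)
    (i j : Fin 6) : f (mem ω x i j) = mem ω (f ∘ x) i j := by simp [mem]

theorem Skew.mem (h : Skew ω) (x : Fin 6 → A) (i j : Fin 6) : mem ω x j i = -mem ω x i j := by
  simp only [Pf19.mem, h _ i j, neg_smul, Finset.sum_neg_distrib]

theorem Skew.mem0 (h : Skew ω) (x : Fin 6 → A) (i : Fin 6) : Pf19.mem ω x i i = 0 :=
  Finset.sum_eq_zero fun a _ => by
    rw [show ω a i i = 0 by linear_combination (1 / 2 : ℂ) * h a i i, zero_smul]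

theorem dot_w (x u v : Fin 6 → A) : x ⬝ᵥ w ω u v = ∑ i, u i * ∑ j, mem ω x i j * v j := by
  simp only [dotProduct, w_apply, mem, Finset.mul_sum, Finset.sum_mul]
  rw [Finset.sum_comm]
  refine Finset.sum_congr rfl fun i _ => ?_
  rw [Finset.sum_comm]
  exact Finset.sum_congr rfl fun j _ => Finset.sum_congr rfl fun a _ => by
    simp only [Algebra.smul_def]
    ring

theorem Skew.row (h : Skew ω) {x u : Fin 6 → A} (hu : ∀ v, x ⬝ᵥ w ω u v = 0) (l : Fin 6) :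
    ∑ m, Pf19.mem ω x l m * u m = 0 := by
  have h1 := hu (Pi.single l 1)
  rw [h.swap, dotProduct_neg, neg_eq_zero, dot_w] at h1
  simpa [Pi.single_apply] using h1

/-- the Pfaffian cubic -/
def cub (ω : Om) : MvPolynomial (Fin 6) ℂ := pf (mem ω X)

theorem aeval_cub (x : Fin 6 → A) : aeval x (cub ω) = pf (mem ω x) := by
  refine (map_pf (aeval x : MvPolynomial (Fin 6) ℂ →ₐ[ℂ] A).toRingHom _).trans ?_
  congr 1
  funext i j
  refine (map_mem (aeval x) X i j).trans ?_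
  congr 1
  funext a
  simp

theorem cub_isHomogeneous (ω : Om) : (cub ω).IsHomogeneous 3 := by
  have h : ∀ i j, (mem ω (X : Fin 6 → MvPolynomial (Fin 6) ℂ) i j).IsHomogeneous 1 := fun i j =>
    IsHomogeneous.sum _ _ _ fun a _ => by
      rw [smul_eq_C_mul]
      exact isHomogeneous_C_mul_X _ _
  have h2 : ∀ i j a b c d, (mem ω (X : Fin 6 → MvPolynomial (Fin 6) ℂ) i j *
      (mem ω X a b * mem ω X c d - mem ω X a c * mem ω X b d +
        mem ω X a d * mem ω X b c)).IsHomogeneous 3 := fun i j a b c d =>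
    (h i j).mul ((((h a b).mul (h c d)).sub ((h a c).mul (h b d))).add ((h a d).mul (h b c)))
  exact ((((h2 ..).sub (h2 ..)).add (h2 ..)).sub (h2 ..)).add (h2 ..)

theorem aeval_cub_eq_zero [IsDomain A] (h : Skew ω) {x u : Fin 6 → A} (hu : u ≠ 0)
    (h1 : ∀ v, x ⬝ᵥ w ω u v = 0) : aeval x (cub ω) = 0 := by
  obtain ⟨k, hk⟩ := Function.ne_iff.1 hu
  rw [aeval_cub]
  exact (mul_eq_zero.1 (pf_mul (h.mem x) (h.mem0 x) (h.row h1) k)).resolve_right hk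

theorem exists_comb {K : Type} [Field K] {m n : ℕ} (hmn : n < m) (B : Fin m → Fin n → K) :
    ∃ c : Fin m → K, c ≠ 0 ∧ ∑ l, c l • B l = 0 := by
  have h : ¬ LinearIndependent K B := fun h => by
    have := h.fintype_card_le_finrank
    simp at this
    omega
  obtain ⟨c, h1, l, h2⟩ := Fintype.not_linearIndependent_iff.1 h
  exact ⟨c, fun h0 => h2 (congrFun h0 l), h1⟩

/-- a smooth Pfaffian cubic contains no form of rank two -/
theorem noRk2_of_sm (h : Skew ω)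
    (hs : ∀ p : Fin 6 → ℂ, p ≠ 0 → eval p (cub ω) = 0 → ∃ i, eval p (pderiv i (cub ω)) ≠ 0) :
    NoRk2 ℂ ω := fun x hx u h1 hu => by
  have key : ∀ i j, eval x (sub (mem ω X) i j) = 0 := fun i j => by
    obtain ⟨c, hc, h2⟩ := exists_comb (by norm_num : 2 < 3) fun l => ![u l i, u l (i.succAbove j)]
    have h3 : ∑ l, c l • u l ≠ 0 := fun h0 => hc (funext (Fintype.linearIndependent_iff.1 hu c h0))
    obtain ⟨k, hk⟩ := Function.ne_iff.1 h3
    have h4 := sub_mul (h.mem x) (h.mem0 x) (v := ∑ l, c l • u l)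
      (h.row fun v => by simp [dotProduct_sum, h1]) (i := i) (j := j)
      (by simpa using congrFun h2 0) (by simpa using congrFun h2 1) k
    rw [map_sub']
    convert (mul_eq_zero.1 h4).resolve_right hk using 4
    simp [mem]
  obtain ⟨i, hi⟩ := hs x hx (der_pf (pderiv 0) (eval x) key).2
  exact hi (der_pf (pderiv i) (eval x) key).1

end Crest.Agent.X262.Pf19
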