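import Crest.Agent.X262.Pf19.Val
import Crest.Agent.X262.Pf19.Pf

/-!
# Row 262, PF (helper19), part 3: the line attached to two planes

* `lp c`, `lq c`   : the two points of the line orthogonal to four vectors; `wd_lp`;
* `li_four`, `li_c4` : two planes of the surface span a four-dimensional space;
* `iso_eq`         : a pencil of forms of rank four has only one isotropic space of dimension four;
* `par_of_line`    : the line determines the two planes.
-/

set_option autoImplicit false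

open Module

noncomputable section

namespace Crest.Agent.X262.Pf19

variable {ω : Om} {K : Type} [Field K]

section dt

variable {A : Type} [CommRing A] {n : ℕ} {u v : Fin (n + 2) → A} {c : Fin n → Fin (n + 2) → A}

theorem dt_self (u : Fin (n + 2) → A) : dt A u u c = 0 :=
  Matrix.det_zero_of_row_eq (i := 0) (j := Fin.succ 0) (Fin.succ_ne_zero _).symm rfl

theorem dt_left (i : Fin n) (v : Fin (n + 2) → A) : dt A (c i) v c = 0 :=
  Matrix.det_zero_of_row_eq (i := 0) (j := i.succ.succ) (Fin.succ_ne_zero _).symm rfl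

theorem dt_swap (u v : Fin (n + 2) → A) : dt A v u c = -dt A u v c := by
  have h := dt_self (c := c) (u + v)
  simp only [map_add, LinearMap.add_apply, AlternatingMap.add_apply, dt_self] at h
  linear_combination h

theorem dt_right (i : Fin n) (u : Fin (n + 2) → A) : dt A u (c i) c = 0 := by
  rw [dt_swap, dt_left, neg_zero]

/-- the determinant as a bilinear form -/
def bl (c : Fin n → Fin (n + 2) → A) : (Fin (n + 2) → A) →ₗ[A] (Fin (n + 2) → A) →ₗ[A] A :=
  (dt A).compr₂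
    { toFun := fun f => f c, map_add' := fun _ _ => rfl, map_smul' := fun _ _ => rfl }

theorem dt_eq_bl (u v : Fin (n + 2) → A) : dt A u v c = bl c u v := rfl

theorem dt_left_sum (u v : Fin (n + 2) → A) : dt A u v c = ∑ a, u a * dt A (Pi.single a 1) v c := by
  conv_lhs => rw [dt_eq_bl, pi_eq_sum_univ' u]
  simp only [map_sum, map_smul, LinearMap.sum_apply, LinearMap.smul_apply, smul_eq_mul]
  rfl

theorem dt_perm (σ : Equiv.Perm (Fin (n + 2))) (u v : Fin (n + 2) → A) :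
    dt A (u ∘ σ) (v ∘ σ) (fun i => c i ∘ σ) = (Equiv.Perm.sign σ : ℤ) * dt A u v c := by
  rw [dt_apply, dt_apply, ← Matrix.det_permute']
  congr 1
  ext i j
  refine Fin.cases rfl (fun i => Fin.cases rfl (fun i => rfl) i) i

end dt

theorem exists_coord {n : ℕ} {u v : Fin (n + 2) → K} {c : Fin n → Fin (n + 2) → K}
    (h : dt K u v c ≠ 0) (x : Fin (n + 2) → K) :
    ∃ (s t : K) (g : Fin n → K), x = s • u + t • v + ∑ i, g i • c i := by
  obtain ⟨g, hg⟩ := Matrix.vecMul_surjective_iff_isUnit.2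
    ((Matrix.isUnit_iff_isUnit_det (Matrix.of (Matrix.vecCons u (Matrix.vecCons v c)))).2
      (Ne.isUnit h)) x
  refine ⟨g 0, g (Fin.succ 0), fun i => g i.succ.succ, ?_⟩
  rw [← hg, add_assoc]
  change Matrix.vecMul g _ = _
  rw [Matrix.vecMul_eq_sum, Fin.sum_univ_succ, Fin.sum_univ_succ]
  rfl

theorem dt_plk {n : ℕ} {u v : Fin (n + 2) → K} {c : Fin n → Fin (n + 2) → K} (h : dt K u v c ≠ 0)
    (x y : Fin (n + 2) → K) :
    dt K x v c * dt K u y c - dt K y v c * dt K u x c = dt K x y c * dt K u v c := by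
  obtain ⟨s, t, g, rfl⟩ := exists_coord h x
  obtain ⟨s', t', g', rfl⟩ := exists_coord h y
  simp only [dt_eq_bl]
  simp only [map_add, map_smul, map_sum, LinearMap.add_apply, LinearMap.smul_apply,
    LinearMap.sum_apply]
  simp only [← dt_eq_bl, dt_self, dt_left, dt_right, dt_swap u v, smul_eq_mul, mul_zero,
    Finset.sum_const_zero, add_zero]
  ring

theorem mn_plk {n : ℕ} {c : Fin n → Fin (n + 2) → K} {i j : Fin (n + 2)} (h : mn c (i, j) ≠ 0)
    (ab : Fin (n + 2) × Fin (n + 2)) :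
    mn c (ab.1, j) * mn c (i, ab.2) - mn c (ab.2, j) * mn c (i, ab.1) = mn c ab * mn c (i, j) :=
  dt_plk h _ _

theorem mn_dot {n : ℕ} (c : Fin n → Fin (n + 2) → K) (i : Fin n) (j : Fin (n + 2)) (d : K) :
    (fun a => mn c (a, j) / d) ⬝ᵥ c i = 0 := by
  have h := (dt_left_sum (c := c) (c i) (Pi.single j 1)).symm.trans (dt_left i _)
  simp only [dotProduct, mn, mul_comm _ (c i _), ← mul_div_assoc, ← Finset.sum_div, h, zero_div]

theorem mn_dot' {n : ℕ} (c : Fin n → Fin (n + 2) → K) (i : Fin n) (j : Fin (n + 2)) (d : K) :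
    (fun a => mn c (j, a) / d) ⬝ᵥ c i = 0 := by
  rw [← mn_dot c i j (-d)]
  congr 1
  funext a
  rw [mn, dt_swap, neg_div, div_neg]
  rfl

/-- the first point of the line -/
def lp (c : Fin 4 → Fin 6 → K) (j : Fin 6) : K := mn (n := 4) c (j, 1) / mn (n := 4) c (0, 1)

/-- the second point of the line -/
def lq (c : Fin 4 → Fin 6 → K) (j : Fin 6) : K := mn (n := 4) c (0, j) / mn (n := 4) c (0, 1)

theorem lp_dot (c : Fin 4 → Fin 6 → K) (i : Fin 4) : lp c ⬝ᵥ c i = 0 := mn_dot (n := 4) c i 1 _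

theorem lq_dot (c : Fin 4 → Fin 6 → K) (i : Fin 4) : lq c ⬝ᵥ c i = 0 := mn_dot' (n := 4) c i 0 _

theorem wd_lp {c : Fin 4 → Fin 6 → K} (h : mn (n := 4) c (0, 1) ≠ 0) :
    wd (lp c) (lq c) = (mn (n := 4) c (0, 1))⁻¹ • mn (n := 4) c := by
  ext ab
  have h1 := mn_plk (n := 4) h ab
  simp only [wd, lp, lq, Pi.smul_apply, smul_eq_mul]
  field_simp
  linear_combination h1

theorem exists_det {a b : K} (h : ¬(a = 0 ∧ b = 0)) : ∃ a' b', a * b' - b * a' ≠ 0 := by
  by_cases h0 : a = 0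
  · exact ⟨1, 0, fun h2 => h ⟨h0, by linear_combination -h2⟩⟩
  · exact ⟨0, 1, by simpa using h0⟩

variable [Algebra ℂ K] {p q p' q' : Fin 2 → Fin 6 → K}

theorem li_four (hs : Skew ω) (hl : NoLine K ω) (hp : w ω (p 0) (p 1) = 0)
    (hq : w ω (q 0) (q 1) = 0) (hne : wd (wd (p 0) (p 1)) (wd (q 0) (q 1)) ≠ 0) :
    LinearIndependent K ![p 0, p 1, q 0, q 1] := by
  have hP : wd (p 0) (p 1) ≠ 0 := fun h0 => hne (by rw [h0]; ext; simp [wd])
  have hQ : wd (q 0) (q 1) ≠ 0 := fun h0 => hne (by rw [h0]; ext; simp [wd])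
  refine Fintype.linearIndependent_iff.2 fun g hg => ?_
  simp only [Fin.sum_univ_four, Matrix.cons_val] at hg
  have h1 : g 0 = 0 ∧ g 1 = 0 := by
    by_contra h1
    have h2 : ¬(g 2 = 0 ∧ g 3 = 0) := fun h2 => h1 (wd_ne_iff.1 hP _ _ (by simpa [h2] using hg))
    obtain ⟨a, b, hab⟩ := exists_det h1
    obtain ⟨c, d, hcd⟩ := exists_det h2
    have e : g 0 • p 0 + g 1 • p 1 = (-g 2) • q 0 + (-g 3) • q 1 := by
      linear_combination (norm := module) hg
    refine hl ![g 0 • p 0 + g 1 • p 1, a • p 0 + b • p 1, c • q 0 + d • q 1]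
      (by simp [hs.self, hp, hs.swap (p 0) (p 1)])
      (by rw [e]; simp [hs.self, hq, hs.swap (q 0) (q 1)])
      (Fintype.linearIndependent_iff.2 fun t ht => ?_)
    simp only [Fin.sum_univ_three, Matrix.cons_val] at ht
    obtain ⟨t1, t2⟩ := wd_ne_iff.1 hne (t 1 * (g 0 * b - g 1 * a)) (-(t 2 * (g 2 * d - g 3 * c))) (by
      have e1 := wd_comb (p 0) (p 1) (g 0) (g 1) a b
      have e2 := wd_comb (q 0) (q 1) (-g 2) (-g 3) c d
      rw [← e] at e2
      ext ij
      have a1 := congrFun ht ij.1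
      have a2 := congrFun ht ij.2
      have a3 := congrFun e1 ij
      have a4 := congrFun e2 ij
      set x := g 0 • p 0 + g 1 • p 1
      set y := a • p 0 + b • p 1
      set z := c • q 0 + d • q 1
      simp only [wd, Pi.add_apply, Pi.smul_apply, smul_eq_mul, Pi.zero_apply] at a1 a2 a3 a4 ⊢
      linear_combination x ij.1 * a2 - x ij.2 * a1 - t 1 * a3 - t 2 * a4)
    replace t1 := (mul_eq_zero.1 t1).resolve_right hab
    replace t2 := (mul_eq_zero.1 (neg_eq_zero.1 t2)).resolve_right hcd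
    have t0 : t 0 = 0 := by
      rw [t1, t2, zero_smul, zero_smul, add_zero, add_zero] at ht
      exact (smul_eq_zero.1 ht).resolve_right fun h0 => h1 (wd_ne_iff.1 hP _ _ h0)
    intro i
    fin_cases i
    exacts [t0, t1, t2]
  obtain ⟨h2, h3⟩ := wd_ne_iff.1 hQ (g 2) (g 3) (by simpa [h1] using hg)
  intro i
  fin_cases i
  exacts [h1.1, h1.2, h2, h3]

theorem rel_eq (hc : NoConic K ω) (hk : LinearIndependent K ![p 0, p 1, q 0, q 1])
    (hp : w ω (p 0) (p 1) = 0) (hq : w ω (q 0) (q 1) = 0) {g : Fin 4 → K}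
    (hg : ∑ i, g i • c4 ω p q i = 0) : g = 0 := by
  have h := hc.eq_zero hk (β := Pi.single 0 1) (β' := Pi.single 5 1)
    (γ := ![0, g 0, g 1, g 2, g 3, 0]) (m := 0) (n := 5) (by simp [Pi.single_apply, cols, hp])
    (by simp [Pi.single_apply, cols, hq])
    (by simpa [Fin.sum_univ_six, Fin.sum_univ_four, cols, c4] using hg) (by simp) (by simp)
    (by simp) rfl rfl
  ext i
  fin_cases i
  exacts [congrFun h 1, congrFun h 2, congrFun h 3, congrFun h 4]

theorem li_c4 (hc : NoConic K ω) (hk : LinearIndependent K ![p 0, p 1, q 0, q 1])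
    (hp : w ω (p 0) (p 1) = 0) (hq : w ω (q 0) (q 1) = 0) : LinearIndependent K (c4 ω p q) :=
  Fintype.linearIndependent_iff.2 fun _ hg => congrFun (rel_eq hc hk hp hq hg)

/-- the member of the family as a bilinear form -/
def fm (ω : Om) (z : Fin 6 → K) : (Fin 6 → K) →ₗ[K] (Fin 6 → K) →ₗ[K] K :=
  (w ω).compr₂ (dotProductBilin K K z)

theorem fm_apply (z u v : Fin 6 → K) : fm ω z u v = z ⬝ᵥ w ω u v := rfl

/-- an isotropic subspace -/
def Iso (ω : Om) (z : Fin 6 → K) (U : Submodule K (Fin 6 → K)) : Prop :=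
  ∀ u ∈ U, ∀ v ∈ U, fm ω z u v = 0

theorem iso_span (hs : Skew ω) (hp : w ω (p 0) (p 1) = 0) (hq : w ω (q 0) (q 1) = 0)
    {z : Fin 6 → K} (hz : ∀ i, z ⬝ᵥ c4 ω p q i = 0) :
    Iso ω z (Submodule.span K (Set.range ![p 0, p 1, q 0, q 1])) := by
  intro u hu v hv
  obtain ⟨a, rfl⟩ := (Submodule.mem_span_range_iff_exists_fun K).1 hu
  obtain ⟨b, rfl⟩ := (Submodule.mem_span_range_iff_exists_fun K).1 hv
  have h0 : z ⬝ᵥ w ω (p 0) (q 0) = 0 := hz 0
  have h1 : z ⬝ᵥ w ω (p 0) (q 1) = 0 := hz 1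
  have h2 : z ⬝ᵥ w ω (p 1) (q 0) = 0 := hz 2
  have h3 : z ⬝ᵥ w ω (p 1) (q 1) = 0 := hz 3
  simp [Fin.sum_univ_four, fm_apply, hs.self, hp, hq, h0, h1, h2, h3, hs.swap (p 0) (p 1),
    hs.swap (q 0) (q 1), hs.swap (p 0) (q 0), hs.swap (p 0) (q 1), hs.swap (p 1) (q 0),
    hs.swap (p 1) (q 1)]

omit [Algebra ℂ K] in
/-- the kernel of a form is large when a large space is orthogonal to a large space -/
theorem exists_ker {V : Type} [AddCommGroup V] [Module K V] [FiniteDimensional K V]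
    (B : V →ₗ[K] V →ₗ[K] K) {A U : Submodule K V} (h : ∀ a ∈ A, ∀ u ∈ U, B a u = 0) {n : ℕ}
    (hn : n + finrank K V ≤ finrank K A + finrank K U) :
    ∃ u : Fin n → V, LinearIndependent K u ∧ ∀ l v, B (u l) v = 0 := by
  have h1 := (B.domRestrict A).finrank_range_add_finrank_ker
  have h3 : finrank K (LinearMap.range (B.domRestrict A)) ≤ finrank K U.dualAnnihilator :=
    Submodule.finrank_mono (by
      rintro _ ⟨a, rfl⟩
      exact (Submodule.mem_dualAnnihilator _).2 (h a a.2))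
  have h4 := Subspace.finrank_add_finrank_dualAnnihilator_eq U
  obtain ⟨u, hu⟩ := exists_linearIndependent_of_le_finrank (R := K)
    (M := LinearMap.ker (B.domRestrict A)) (n := n) (by omega)
  exact ⟨fun l => (u l).1.1, (hu.map' (A.subtype ∘ₗ Submodule.subtype _)
    (LinearMap.ker_eq_bot.2 (Subtype.val_injective.comp Subtype.val_injective))),
    fun l v => LinearMap.congr_fun (u l).2 v⟩

theorem Iso.cub (hs : Skew ω) {z : Fin 6 → K} {U : Submodule K (Fin 6 → K)} (h : Iso ω z U)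
    (hU : finrank K U = 4) : MvPolynomial.aeval z (cub ω) = 0 := by
  obtain ⟨u, h1, h2⟩ := exists_ker (fm ω z) h (n := 1) (by simp [hU])
  exact aeval_cub_eq_zero hs (h1.ne_zero 0) (h2 0)

omit [Algebra ℂ K] in
theorem exists_sing [IsAlgClosed K] {V W : Type} [AddCommGroup V] [Module K V] [AddCommGroup W]
    [Module K W] [FiniteDimensional K V] [FiniteDimensional K W] [Nontrivial V]
    (h : finrank K V = finrank K W) (f g : V →ₗ[K] W) :
    ∃ (s t : K) (u : V), ¬(s = 0 ∧ t = 0) ∧ u ≠ 0 ∧ s • f u + t • g u = 0 := by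
  by_cases hg : Function.Injective g
  · let e := g.linearEquivOfInjective hg h
    obtain ⟨c, hc⟩ := Module.End.exists_eigenvalue (e.symm.toLinearMap ∘ₗ f)
    obtain ⟨u, hu⟩ := hc.exists_hasEigenvector
    refine ⟨1, -c, u, by simp, hu.2, ?_⟩
    have h1 : f u = e (c • u) := e.symm_apply_eq.1 hu.apply_eq_smul
    rw [h1, map_smul]
    simp [e]
  · obtain ⟨u, h1, h2⟩ := (Submodule.ne_bot_iff _).1 (mt LinearMap.ker_eq_bot.1 hg)
    exact ⟨0, 1, u, by simp, h2, by simpa using h1⟩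

theorem iso_eq [IsAlgClosed K] (hr : NoRk2 K ω) {x y : Fin 6 → K} (hxy : wd x y ≠ 0)
    {U U' : Submodule K (Fin 6 → K)} (h1 : finrank K U = 4) (h2 : finrank K U' = 4)
    (hx : Iso ω x U) (hy : Iso ω y U) (hx' : Iso ω x U') (hy' : Iso ω y U') : U = U' := by
  by_contra hne
  obtain ⟨C, c1, c2⟩ := IsModularLattice.exists_disjoint_and_sup_eq (inf_le_left : U ⊓ U' ≤ U)
  obtain ⟨C', c3, c4⟩ := IsModularLattice.exists_disjoint_and_sup_eq (inf_le_right : U ⊓ U' ≤ U')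
  have d1 := Submodule.finrank_sup_add_finrank_inf_eq (U ⊓ U') C
  have d2 := Submodule.finrank_sup_add_finrank_inf_eq (U ⊓ U') C'
  have d3 := Submodule.finrank_sup_add_finrank_inf_eq U U'
  rw [c2, c1.eq_bot, finrank_bot] at d1
  rw [c4, c3.eq_bot, finrank_bot] at d2
  have d4 : finrank K (U ⊓ U' : Submodule K _) < 4 := by
    by_contra! d4
    exact hne ((Submodule.eq_of_le_of_finrank_le inf_le_left (h1 ▸ d4)).symm.trans
      (Submodule.eq_of_le_of_finrank_le inf_le_right (h2 ▸ d4)))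
  have : Nontrivial C := Module.nontrivial_of_finrank_pos (R := K) (by omega)
  obtain ⟨s, t, u, hst, hu, e⟩ := exists_sing (V := C) (W := Dual K C')
    (by rw [Subspace.dual_finrank_eq]; omega) ((fm ω x).domRestrict₁₂ C C')
    ((fm ω y).domRestrict₁₂ C C')
  have z : ∀ a b, fm ω (s • x + t • y) a b = s * fm ω x a b + t * fm ω y a b := fun a b => by
    simp [fm_apply]
  have hC : C ≤ U := c2 ▸ le_sup_right
  obtain ⟨v, hv, h3⟩ := exists_ker (fm ω (s • x + t • y)) (A := U ⊓ U' ⊔ Submodule.span K {u.1})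
    (U := U ⊔ U') (n := 3) (fun a ha b hb => by
      obtain ⟨a, a1, a', ha', rfl⟩ := Submodule.mem_sup.1 ha
      obtain ⟨c, rfl⟩ := Submodule.mem_span_singleton.1 ha'
      obtain ⟨b, a2, b', a3, rfl⟩ := Submodule.mem_sup.1 hb
      obtain ⟨b1, a4, b2, a5, rfl⟩ := Submodule.mem_sup.1 (c4.ge a3)
      have e1 : s * fm ω x u b2 + t * fm ω y u b2 = 0 := LinearMap.congr_fun e ⟨b2, a5⟩
      have e2 : fm ω (s • x + t • y) a (b + (b1 + b2)) = 0 := by
        rw [map_add, z, z, hx a a1.1 b a2, hy a a1.1 b a2, hx' a a1.2 _ a3, hy' a a1.2 _ a3]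
        simp
      rw [LinearMap.map_add₂, LinearMap.map_smul₂, e2, map_add, map_add, z, z, z,
        hx u (hC u.2) b a2, hy u (hC u.2) b a2, hx u (hC u.2) b1 a4.1, hy u (hC u.2) b1 a4.1, e1]
      simp) (by
      rw [Submodule.finrank_sup_span_singleton fun h =>
        hu (Subtype.ext (Submodule.disjoint_def.1 c1 _ h u.2))]
      simp only [finrank_fintype_fun_eq_card, Fintype.card_fin]
      omega)
  exact hr _ (fun h0 => hst (wd_ne_iff.1 hxy s t h0)) v h3 hv

theorem par_of_mem (hs : Skew ω) (hc : NoConic K ω)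
    (hk : LinearIndependent K ![p 0, p 1, q 0, q 1]) (hp : w ω (p 0) (p 1) = 0)
    (hq : w ω (q 0) (q 1) = 0) {u v : Fin 6 → K}
    (hu : u ∈ Submodule.span K (Set.range ![p 0, p 1, q 0, q 1]))
    (hv : v ∈ Submodule.span K (Set.range ![p 0, p 1, q 0, q 1])) (h : w ω u v = 0) :
    (∃ c : K, wd u v = c • wd (p 0) (p 1)) ∨ ∃ c : K, wd u v = c • wd (q 0) (q 1) := by
  obtain ⟨a, rfl⟩ := (Submodule.mem_span_range_iff_exists_fun K).1 hu
  obtain ⟨b, rfl⟩ := (Submodule.mem_span_range_iff_exists_fun K).1 hv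
  have h1 := rel_eq hc hk hp hq (g := ![wd a b (0, 2), wd a b (0, 3), wd a b (1, 2), wd a b (1, 3)])
    (by
      rw [← h]
      simp [Fin.sum_univ_four, c4, wd, hs.self, hp, hq, hs.swap (p 0) (p 1), hs.swap (q 0) (q 1),
        hs.swap (p 0) (q 0), hs.swap (p 0) (q 1), hs.swap (p 1) (q 0), hs.swap (p 1) (q 1)]
      module)
  have e0 : a 0 * b 2 - a 2 * b 0 = 0 := congrFun h1 0
  have e1 : a 0 * b 3 - a 3 * b 0 = 0 := congrFun h1 1
  have e2 : a 1 * b 2 - a 2 * b 1 = 0 := congrFun h1 2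
  have e3 : a 1 * b 3 - a 3 * b 1 = 0 := congrFun h1 3
  have e : wd (∑ i, a i • ![p 0, p 1, q 0, q 1] i) (∑ i, b i • ![p 0, p 1, q 0, q 1] i) =
      (a 0 * b 1 - a 1 * b 0) • wd (p 0) (p 1) + (a 2 * b 3 - a 3 * b 2) • wd (q 0) (q 1) := by
    ext ij
    simp only [Fin.sum_univ_four, wd, Pi.add_apply, Pi.smul_apply, smul_eq_mul, Matrix.cons_val]
    linear_combination (norm := (simp only [wd]; ring1)) wd (p 0) (q 0) ij * e0 +
      wd (p 0) (q 1) ij * e1 + wd (p 1) (q 0) ij * e2 + wd (p 1) (q 1) ij * e3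
  rcases mul_eq_zero.1 (show (a 2 * b 3 - a 3 * b 2) * (a 0 * b 1 - a 1 * b 0) = 0 by
    linear_combination (a 1 * b 3 - a 3 * b 1) * e0 - (a 1 * b 2 - a 2 * b 1) * e1) with h0 | h0
  · exact .inl ⟨_, by rw [e, h0, zero_smul, add_zero]⟩
  · exact .inr ⟨_, by rw [e, h0, zero_smul, zero_add]⟩

/-- **the line determines the two planes** -/
theorem par_of_line [IsAlgClosed K] (hs : Skew ω) (hl : NoLine K ω) (hc : NoConic K ω)
    (hr : NoRk2 K ω) (hp : w ω (p 0) (p 1) = 0) (hq : w ω (q 0) (q 1) = 0)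
    (hne : wd (wd (p 0) (p 1)) (wd (q 0) (q 1)) ≠ 0) (hp' : w ω (p' 0) (p' 1) = 0)
    (hq' : w ω (q' 0) (q' 1) = 0) (hne' : wd (wd (p' 0) (p' 1)) (wd (q' 0) (q' 1)) ≠ 0)
    {x y : Fin 6 → K} (hxy : wd x y ≠ 0) (hx : ∀ i, x ⬝ᵥ c4 ω p q i = 0)
    (hy : ∀ i, y ⬝ᵥ c4 ω p q i = 0) (hx' : ∀ i, x ⬝ᵥ c4 ω p' q' i = 0)
    (hy' : ∀ i, y ⬝ᵥ c4 ω p' q' i = 0) : ∃ c d : K,
      (wd (p' 0) (p' 1) = c • wd (p 0) (p 1) ∧ wd (q' 0) (q' 1) = d • wd (q 0) (q 1)) ∨
      (wd (p' 0) (p' 1) = c • wd (q 0) (q 1) ∧ wd (q' 0) (q' 1) = d • wd (p 0) (p 1)) := by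
  have hk := li_four hs hl hp hq hne
  have e := iso_eq hr hxy (by simpa using finrank_span_eq_card hk)
    (by simpa using finrank_span_eq_card (li_four hs hl hp' hq' hne')) (iso_span hs hp hq hx)
    (iso_span hs hp hq hy) (iso_span hs hp' hq' hx') (iso_span hs hp' hq' hy')
  have m : ∀ i, ![p' 0, p' 1, q' 0, q' 1] i ∈ Submodule.span K (Set.range ![p 0, p 1, q 0, q 1]) :=
    fun i => e ▸ Submodule.subset_span ⟨i, rfl⟩
  have z : ∀ (P : Fin 6 × Fin 6 → K) (c d : K), wd (p' 0) (p' 1) = c • P →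
      wd (q' 0) (q' 1) ≠ d • P := fun P c d e1 e2 => hne' (by
    rw [e1, e2, wd_smul]; ext; simp [wd, mul_comm])
  rcases par_of_mem hs hc hk hp hq (m 0) (m 1) hp' with ⟨c, h1⟩ | ⟨c, h1⟩ <;>
    rcases par_of_mem hs hc hk hp hq (m 2) (m 3) hq' with ⟨d, h2⟩ | ⟨d, h2⟩
  exacts [(z _ c d h1 h2).elim, ⟨c, d, .inl ⟨h1, h2⟩⟩, ⟨c, d, .inr ⟨h1, h2⟩⟩, (z _ c d h1 h2).elim]

theorem Phi_swap {A : Type} [CommRing A] [Algebra ℂ A] (hs : Skew ω) (p q : Fin 2 → Fin 6 → A) :
    Phi ω q p = -Phi ω p q := by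
  have h := mn_mul (n := 4) !![-1, 0, 0, 0; 0, 0, -1, 0; 0, -1, 0, 0; 0, 0, 0, -1] (c4 ω p q)
  rw [Phi, Phi, ← neg_one_smul A (mn _)]
  convert h using 2
  · funext m
    fin_cases m <;> simp [c4, Fin.sum_univ_four] <;> exact hs.swap _ _
  · simp [Matrix.det_succ_row_zero, Fin.sum_univ_succ, Fin.succAbove]

end Crest.Agent.X262.Pf19
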