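import Crest.Agent.X262.Pf19.Line
import Crest.Agent.X262.St91.Defs2
import Crest.Agent.X262.Fano21.Nrm
import Crest.Agent.X262.Brg.Lines
import Crest.Agent.X262.Wd54.Pf

/-!
# Row 262, PF (helper19), part 4: the map of Beauville and Donagi

* `genPt`        : the line of `Lines G F L` is the generic point of the chart;
* `exists_lines` : the variety of lines of the Pfaffian cubic is birational to the symmetric square;
* `pfStmt`       : `St91.PfStmt`.
-/

set_option autoImplicit false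

open MvPolynomial

noncomputable section

namespace Crest.Agent.X262.Pf19

open Crest.AlgGeometry Crest.Agent.X277 Crest.Agent.X277.BD
open Crest.Agent.X262.Top (SmCub Lines)
open Crest.Agent.X262.St91 (OnS omI I2 ln dgl PfStmt)
open Crest.Agent.X262.Rig38 (pv qv GenPt)
open Crest.Agent.R274.Prod1_134 (IsPF)

variable {ω : Om} {F L : Type} [Field F] [Algebra ℂ F] [Field L] [Algebra ℂ L]

theorem ext_of_gen {s : Set F} (hs : IntermediateField.adjoin ℂ s = ⊤) {f g : F →ₐ[ℂ] L}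
    (h : ∀ x ∈ s, f x = g x) : f = g := AlgHom.ext fun x =>
  IntermediateField.adjoin_induction ℂ (p := fun x _ => f x = g x) h (fun c => by simp)
    (fun _ _ _ _ h1 h2 => by rw [map_add, map_add, h1, h2])
    (fun _ _ h1 => by rw [map_inv₀, map_inv₀, h1])
    (fun _ _ _ _ h1 h2 => by rw [map_mul, map_mul, h1, h2]) (hs ▸ IntermediateField.mem_top (x := x))

theorem ext_of_par {ι : Type} {P : ι → F}
    (hs : IntermediateField.adjoin ℂ {x | ∃ i j, x = P i / P j} = ⊤) {f g : F →ₐ[ℂ] L} {c : L}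
    (hc : c ≠ 0) (h : f ∘ P = c • (g ∘ P)) : f = g := ext_of_gen hs (by
  rintro _ ⟨i, j, rfl⟩
  have h1 : ∀ i, f (P i) = c * g (P i) := congrFun h
  rw [map_div₀, map_div₀, h1, h1, mul_div_mul_left _ _ hc])

theorem mem_of_emb (K : IntermediateField ℂ L) (τ : L →ₐ[ℂ] L)
    (key : ∀ σ : L →ₐ[K] AlgebraicClosure L,
      σ.restrictScalars ℂ = IsScalarTower.toAlgHom ℂ L _ ∨
        σ.restrictScalars ℂ = (IsScalarTower.toAlgHom ℂ L _).comp τ) {x : L} (hx : τ x = x) :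
    x ∈ K := by
  have halg : Algebra.IsAlgebraic K L := by
    by_contra hn
    have := Algebra.transcendental_iff_not_isAlgebraic.2 hn
    have : Finite (Field.Emb K L) := Set.finite_univ_iff.1
      ((((Set.finite_singleton _).insert _).preimage
        (AlgHom.restrictScalars_injective ℂ).injOn).subset fun σ _ => key σ)
    exact not_finite (Field.Emb K L)
  have h1 : (minpoly K x).rootSet (AlgebraicClosure L) ⊆ {algebraMap L _ x} := by
    rw [← Algebra.IsAlgebraic.range_eval_eq_rootSet_minpoly]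
    rintro _ ⟨σ, rfl⟩
    rcases key σ with h | h
    · exact DFunLike.congr_fun h x
    · exact (DFunLike.congr_fun h x).trans (congrArg (algebraMap L _) hx)
  have h2 := Polynomial.card_rootSet_eq_natDegree (K := AlgebraicClosure L)
    (Algebra.IsSeparable.isSeparable K x) (IsAlgClosed.splits _)
  have h3 := minpoly.natDegree_pos (Algebra.IsIntegral.isIntegral (R := K) x)
  have h4 := Set.card_le_card h1
  rw [h2, Set.card_singleton] at h4
  obtain ⟨y, rfl⟩ := minpoly.natDegree_eq_one_iff.1 (le_antisymm h4 h3)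
  exact y.2

/-- a frame of the plane -/
theorem exists_fr (hs : Skew ω) {P : I2 → F} (hP : OnS (omI ω) P) :
    ∃ f : Fin 2 → Fin 6 → F, wd (f 0) (f 1) = P ∧ w ω (f 0) (f 1) = 0 := by
  obtain ⟨⟨i, j⟩, h0⟩ := Function.ne_iff.1 hP.ne
  have e : wd (fun k => P (i, k) / P (i, j)) (fun k => P (j, k)) = P := by
    ext ⟨k, l⟩
    have h0' : P (i, j) ≠ 0 := h0
    simp only [wd]
    field_simp
    linear_combination -hP.plk i j k l
  refine ⟨![_, _], e, ?_⟩
  have key : ∀ u v : Fin 6 → F, ln (omI ω) (wd u v) = w ω u v - w ω v u := fun u v => by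
    ext a
    simp only [ln, omI, wd, Fintype.sum_prod_type, Pi.sub_apply, w_apply, Algebra.smul_def,
      ← Finset.sum_sub_distrib, mul_sub, mul_comm (v _)]
  have h1 := key (fun k => P (i, k) / P (i, j)) fun k => P (j, k)
  rw [e, hP.lin, hs.swap (fun k => P (i, k) / P (i, j)), sub_neg_eq_add, ← two_smul ℂ] at h1
  exact (smul_eq_zero.1 h1.symm).resolve_left two_ne_zero

theorem on_chart {G : MvPolynomial (Fin 6) ℂ} {a : Fin 8 → L}
    (h : ∀ s t : L, aeval (s • pv a + t • qv a) G = 0) : ∀ r ∈ fanoChartIdeal G, aeval a r = 0 := by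
  have : CharZero L := charZero_of_injective_algebraMap (algebraMap ℂ L).injective
  have key : map (aeval a : MvPolynomial (Fin 8) ℂ →ₐ[ℂ] L).toRingHom (lineSubst G) = 0 :=
    MvPolynomial.funext fun x => by
      rw [map_zero, ← h (x 0) (x 1), lineSubst]
      refine (comp_aeval_apply (R := ℂ) linePoint
        ((aeval x : MvPolynomial (Fin 2) L →ₐ[L] L).restrictScalars ℂ |>.comp
          (mapAlgHom (aeval a))) G).trans ?_
      congr 2
      funext l
      fin_cases l <;> simp [linePoint, pv, qv]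
  intro r hr
  refine (Ideal.span_le.2 ?_ : _ ≤ RingHom.ker (aeval a).toRingHom) hr
  rintro _ ⟨m, rfl⟩
  exact (coeff_map _ _ m).symm.trans (by rw [key, coeff_zero])

/-- the line is the generic point of the chart -/
theorem genPt {G : MvPolynomial (Fin 6) ℂ} (hG : SmCub G) (Λ : Lines G F L) : GenPt G Λ.a := by
  have := Fano21.chart_isDomain hG.1 hG.2
  have := Brg.Lines.isAlgebraic_of_fix Λ.inv fun x => (Λ.fix x).1
  have h := Brg.Lines.inj_of_trdeg (Ideal.Quotient.liftₐ (fanoChartIdeal G) (aeval Λ.a) Λ.on)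
    (d := 4) (Fano21.chart_dim hG.1 hG.2) (by
      rw [Brg.Lines.adjoin_lift, Brg.Lines.trdeg_of_isAlgebraic, Λ.dim]
      rfl)
  exact fun r => ⟨fun h0 => Ideal.Quotient.eq_zero_iff_mem.1 (h (h0.trans (map_zero _).symm)),
    Λ.on r⟩

theorem mn_self {A : Type} [CommRing A] {n : ℕ} (c : Fin n → Fin (n + 2) → A) (i : Fin (n + 2)) :
    mn c (i, i) = 0 := dt_self _

theorem mn_perm {A : Type} [CommRing A] {n : ℕ} (c : Fin n → Fin (n + 2) → A)
    (σ : Equiv.Perm (Fin (n + 2))) (a b : Fin (n + 2)) :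
    mn (fun i => c i ∘ σ) (a, b) = (Equiv.Perm.sign σ : ℤ) * mn c (σ a, σ b) := by
  refine Eq.trans ?_ (dt_perm σ _ _)
  have h : ∀ a, (Pi.single (σ a) 1 : Fin (n + 2) → A) ∘ σ = Pi.single a 1 := fun a => by
    ext i
    simp [Pi.single_apply]
  rw [h, h]
  rfl

theorem alg_wd {A B ι : Type} [CommRing A] [Algebra ℂ A] [CommRing B] [Algebra ℂ B]
    (σ : A →ₐ[ℂ] B) (u v : ι → A) : wd (σ ∘ u) (σ ∘ v) = σ ∘ wd u v :=
  (map_wd σ.toRingHom u v).symm

/-- the chart coordinates -/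
def crd (c : Fin 4 → Fin 6 → L) : Fin 8 → L :=
  ![lp c 2, lp c 3, lp c 4, lp c 5, lq c 2, lq c 3, lq c 4, lq c 5]

omit [Algebra ℂ L] in
theorem pv_crd {c : Fin 4 → Fin 6 → L} (h : mn (n := 4) c (0, 1) ≠ 0) :
    pv (crd c) = lp c ∧ qv (crd c) = lq c := by
  have h0 := mn_self (n := 4) c
  constructor <;> funext l <;> fin_cases l
  exacts [(div_self h).symm, (div_eq_zero_iff.2 (.inl (h0 1))).symm, rfl, rfl, rfl, rfl,
    (div_eq_zero_iff.2 (.inl (h0 0))).symm, (div_self h).symm, rfl, rfl, rfl, rfl]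

theorem map_dot {A B : Type} [CommRing A] [Algebra ℂ A] [CommRing B] [Algebra ℂ B] (σ : A →ₐ[ℂ] B)
    {x : Fin 6 → A} {p q : Fin 2 → Fin 6 → A} (h : ∀ i, x ⬝ᵥ c4 ω p q i = 0) (i : Fin 4) :
    (σ ∘ x) ⬝ᵥ c4 ω (fun l => σ ∘ p l) (fun l => σ ∘ q l) i = 0 := by
  rw [← map_zero σ, ← h i]
  refine Eq.trans ?_ (RingHom.map_dotProduct σ.toRingHom _ _).symm
  congr 1
  fin_cases i <;> exact (map_w σ _ _).symm

section main

variable {f : Fin 2 → Fin 6 → F} {ι : F →ₐ[ℂ] L} {τ : L →ₐ[ℂ] L}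

theorem wd_ne {Ω : Type} [Field Ω] [Algebra ℂ Ω] {α β : F →ₐ[ℂ] Ω} (h0 : wd (f 0) (f 1) ≠ 0)
    (gen : IntermediateField.adjoin ℂ {x | ∃ i j, x = wd (f 0) (f 1) i / wd (f 0) (f 1) j} = ⊤)
    (h : α ≠ β) : wd (wd (α ∘ f 0) (α ∘ f 1)) (wd (β ∘ f 0) (β ∘ f 1)) ≠ 0 := by
  obtain ⟨i, hi⟩ := Function.ne_iff.1 h0
  have h1 : α (wd (f 0) (f 1) i) ≠ 0 := (map_ne_zero α).2 hi
  have h2 : β (wd (f 0) (f 1) i) ≠ 0 := (map_ne_zero β).2 hi
  refine fun e => h (ext_of_par gen (div_ne_zero h1 h2) (funext fun j => ?_))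
  have h3 := congrFun e (i, j)
  rw [alg_wd, alg_wd] at h3
  change α _ = _ * β _
  field_simp
  exact (sub_eq_zero.1 h3).symm

theorem tb_pf (hd : dim ℂ F = 2) (pf : IsPF ι (τ.comp ι)) :
    Algebra.trdeg ℂ L = 4 ∧ ι ≠ τ.comp ι := by
  have : Module.Finite F Ω[F⁄ℂ] := Module.finite_of_finrank_pos (hd ▸ two_pos :)
  obtain ⟨t, ht⟩ := exists_isTranscendenceBasis ℂ F
  have h1 := ht.cardinalMk_eq_trdeg
  rw [Jet.trdeg_eq, show Module.finrank F Ω[F⁄ℂ] = 2 from hd] at h1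
  obtain ⟨e⟩ := Cardinal.mk_eq_nat_iff.1 h1
  have h2 := Wd.isTB_sum pf (ht.comp_equiv e.symm) (ht.comp_equiv e.symm)
  refine ⟨h2.cardinalMk_eq_trdeg.symm.trans (by simp), fun h => ?_⟩
  exact Sum.inl_ne_inr (h2.1.injective (a₁ := .inl 0) (a₂ := .inr 0) (DFunLike.congr_fun h _))

theorem tau_Phi (hs : Skew ω) (inv : ∀ x, τ (τ x) = x) :
    τ ∘ Phi ω (fun l => ι ∘ f l) (fun l => τ.comp ι ∘ f l) =
      -Phi ω (fun l => ι ∘ f l) (fun l => τ.comp ι ∘ f l) := by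
  rw [map_Phi, ← Phi_swap hs]
  congr 1
  funext l k
  exact inv _

theorem exists_lines (hs : Skew ω) (hr : NoRk2 ℂ ω) (hl : NoLine ℂ ω) (hc : NoConic ℂ ω)
    (h0 : wd (f 0) (f 1) ≠ 0) (hf : w ω (f 0) (f 1) = 0)
    (gen : IntermediateField.adjoin ℂ {x | ∃ i j, x = wd (f 0) (f 1) i / wd (f 0) (f 1) j} = ⊤)
    (hd : dim ℂ F = 2) (pf : IsPF ι (τ.comp ι)) (inv : ∀ x, τ (τ x) = x)
    (h01 : Phi ω (fun l => ι ∘ f l) (fun l => τ.comp ι ∘ f l) (0, 1) ≠ 0) :
    ∃ Λ : Lines (cub ω) F L, Λ.ι = ι ∧ Λ.τ = τ ∧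
      Λ.plk = (Phi ω (fun l => ι ∘ f l) (fun l => τ.comp ι ∘ f l) (0, 1))⁻¹ •
        Phi ω (fun l => ι ∘ f l) (fun l => τ.comp ι ∘ f l) := by
  obtain ⟨d4, hne⟩ := tb_pf hd pf
  have hw : ∀ {Ω : Type} [Field Ω] [Algebra ℂ Ω] (α : F →ₐ[ℂ] Ω), w ω (α ∘ f 0) (α ∘ f 1) = 0 :=
    fun α => by rw [← map_w, hf]; ext; simp
  set c := c4 ω (fun l => ι ∘ f l) (fun l => τ.comp ι ∘ f l) with hcd
  obtain ⟨e1, e2⟩ := pv_crd (c := c) h01
  have hτ : ∀ ab, τ (mn (n := 4) c ab) = -mn (n := 4) c ab := congrFun (tau_Phi hs inv)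
  have hk := li_four (p := fun l => ι ∘ f l) (q := fun l => τ.comp ι ∘ f l) hs (hl.field L)
    (hw _) (hw _) (wd_ne h0 gen hne)
  refine ⟨⟨ι, τ, inv, pf.adjoin_eq, d4, crd c, on_chart fun s t => ?_, fun x => ⟨fun hx => ?_,
    fun hx => ?_⟩⟩, rfl, rfl, ?_⟩
  · refine Iso.cub hs (iso_span (p := fun l => ι ∘ f l) (q := fun l => τ.comp ι ∘ f l) hs (hw _)
      (hw _) fun i => ?_) (by simpa using finrank_span_eq_card hk)
    rw [e1, e2, add_dotProduct, smul_dotProduct, smul_dotProduct, lp_dot, lq_dot]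
    simp
  · refine mem_of_emb _ τ (fun σ => ?_) hx
    set a := IsScalarTower.toAlgHom ℂ L (AlgebraicClosure L)
    set s := σ.restrictScalars ℂ
    have ha : s ∘ crd c = a ∘ crd c := funext fun i =>
      σ.commutes ⟨_, IntermediateField.subset_adjoin _ _ ⟨i, rfl⟩⟩
    have hp : s ∘ lp c = a ∘ lp c := by rw [← e1, Fano21.algHom_pv, Fano21.algHom_pv, ha]
    have hq : s ∘ lq c = a ∘ lq c := by rw [← e2, Fano21.algHom_qv, Fano21.algHom_qv, ha]
    have hn : ∀ b : L →ₐ[ℂ] AlgebraicClosure L, b.comp ι ≠ b.comp (τ.comp ι) := fun b h =>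
      hne (AlgHom.ext fun x => b.injective (DFunLike.congr_fun h x))
    have hc0 : ∀ {α β : F →ₐ[ℂ] AlgebraicClosure L} {c : AlgebraicClosure L},
        wd (α ∘ f 0) (α ∘ f 1) = c • wd (β ∘ f 0) (β ∘ f 1) → α = β := fun {α β c} h => by
      rw [alg_wd, alg_wd] at h
      refine ext_of_par gen (fun c0 => h0 (funext fun i => α.injective ?_)) h
      simpa [c0] using congrFun h i
    obtain ⟨c1, c2, h | h⟩ := par_of_line (p := fun l => a.comp ι ∘ f l)
      (q := fun l => a.comp (τ.comp ι) ∘ f l) (p' := fun l => s.comp ι ∘ f l)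
      (q' := fun l => s.comp (τ.comp ι) ∘ f l) hs (hl.field _) (hc.field _) (hr.field _) (hw _)
      (hw _) (wd_ne h0 gen (hn a)) (hw _) (hw _) (wd_ne h0 gen (hn s)) (x := a ∘ lp c)
      (y := a ∘ lq c) (fun h => one_ne_zero (a.injective (by
        have h1 := congrFun ((alg_wd a _ _).symm.trans h) (0, 1)
        rw [wd_lp h01, Function.comp_apply, Pi.smul_apply, smul_eq_mul,
          inv_mul_cancel₀ (show mn (n := 4) c (0, 1) ≠ 0 from h01)] at h1
        exact h1.trans (map_zero a).symm)))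
      (map_dot a (lp_dot c)) (map_dot a (lq_dot c)) (hp ▸ map_dot s (lp_dot c))
      (hq ▸ map_dot s (lq_dot c))
    · refine .inl (ext_of_gen pf.adjoin_eq ?_)
      rintro _ (⟨x, rfl⟩ | ⟨x, rfl⟩)
      exacts [DFunLike.congr_fun (hc0 h.1) x, DFunLike.congr_fun (hc0 h.2) x]
    · refine .inr (ext_of_gen pf.adjoin_eq ?_)
      rintro _ (⟨x, rfl⟩ | ⟨x, rfl⟩)
      exacts [DFunLike.congr_fun (hc0 h.1) x,
        (DFunLike.congr_fun (hc0 h.2) x).trans (congrArg a (inv _).symm)]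
  · refine IntermediateField.adjoin_induction ℂ (p := fun x _ => τ x = x) ?_ (fun c => by simp)
      (fun _ _ _ _ h1 h2 => by rw [map_add, h1, h2]) (fun _ _ h1 => by rw [map_inv₀, h1])
      (fun _ _ _ _ h1 h2 => by rw [map_mul, h1, h2]) hx
    have h1 : ∀ ab, τ (mn (n := 4) c ab / mn (n := 4) c (0, 1)) =
        mn (n := 4) c ab / mn (n := 4) c (0, 1) := fun ab => by
      rw [map_div₀, hτ, hτ, neg_div_neg_eq]
    rintro _ ⟨i, rfl⟩
    fin_cases i <;> exact h1 _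
  · exact (congrArg₂ wd e1 e2).trans (wd_lp h01)

theorem smCub_perm (σ : Equiv.Perm (Fin 6)) (hG : SmCub (cub ω)) : SmCub (cub (ω ∘ σ)) := by
  have e : cub (ω ∘ σ) = rename σ.symm (cub ω) := by
    rw [← aeval_X_left_apply (rename _ _), aeval_rename, aeval_cub, cub]
    congr 1
    funext i j
    exact Fintype.sum_equiv σ _ _ fun a => by simp
  refine ⟨cub_isHomogeneous _, fun p hp h => ?_⟩
  rw [e, eval_rename] at h
  obtain ⟨i, hi⟩ := hG.2 _ (fun h0 => hp (funext fun i => by simpa using congrFun h0 (σ i))) h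
  exact ⟨σ.symm i, by rwa [e, pderiv_rename σ.symm.injective, eval_rename]⟩

theorem Phi_perm (σ : Equiv.Perm (Fin 6)) (p q : Fin 2 → Fin 6 → L) (a b : Fin 6) :
    Phi (ω ∘ σ) p q (a, b) = (Equiv.Perm.sign σ : ℤ) * Phi ω p q (σ a, σ b) := by
  rw [Phi, Phi, ← mn_perm (n := 4)]
  refine congrFun (congrArg (mn (n := 4)) (funext fun i => ?_)) _
  fin_cases i <;> rfl

theorem Phi_ne (hs : Skew ω) (hG : SmCub (cub ω)) (hl : NoLine ℂ ω) (hc : NoConic ℂ ω)
    (h0 : wd (f 0) (f 1) ≠ 0) (hf : w ω (f 0) (f 1) = 0)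
    (gen : IntermediateField.adjoin ℂ {x | ∃ i j, x = wd (f 0) (f 1) i / wd (f 0) (f 1) j} = ⊤)
    (hd : dim ℂ F = 2) (pf : IsPF ι (τ.comp ι)) (inv : ∀ x, τ (τ x) = x) :
    Phi ω (fun l => ι ∘ f l) (fun l => τ.comp ι ∘ f l) (0, 1) ≠ 0 := by
  have hw : ∀ α : F →ₐ[ℂ] L, w ω (α ∘ f 0) (α ∘ f 1) = 0 :=
    fun α => by rw [← map_w, hf]; ext; simp
  obtain ⟨⟨a, b⟩, hab⟩ := exists_mn_ne (n := 4) (li_c4 (p := fun l => ι ∘ f l)
    (q := fun l => τ.comp ι ∘ f l) (hc.field L) (li_four (p := fun l => ι ∘ f l)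
      (q := fun l => τ.comp ι ∘ f l) hs (hl.field L) (hw _) (hw _)
      (wd_ne h0 gen (tb_pf hd pf).2)) (hw _) (hw _))
  have hne : a ≠ b := by
    rintro rfl
    exact hab (mn_self (n := 4) _ a)
  obtain ⟨σ, hσ⟩ := Equiv.Perm.exists_extending_pair (f := (![0, 1] : Fin 2 → Fin 6))
    (g := ![a, b]) (by decide) (by simp [Function.Injective, Fin.forall_fin_two, hne, hne.symm])
  have z : ∀ {x : Fin 6 → ℂ}, x ∘ σ = 0 → x = 0 := fun h =>
    funext fun i => by simpa using congrFun h (σ.symm i)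
  have hs' : Skew (ω ∘ σ) := fun a => hs _
  have hG' := smCub_perm σ hG
  have sg : ((Equiv.Perm.sign σ : ℤ) : L) ≠ 0 := by
    rcases Int.units_eq_one_or (Equiv.Perm.sign σ) with h | h <;> simp [h]
  obtain ⟨Λ, -, -, e⟩ := exists_lines hs' (noRk2_of_sm hs' hG'.2)
    (fun u h1 h2 => hl u (z h1) (z h2))
    (fun k hk β h => hc k hk β fun l => z (by
      rw [← h l]
      ext a
      simp only [Function.comp_apply, Finset.sum_apply, Pi.smul_apply]
      exact Finset.sum_congr rfl fun j _ => by fin_cases j <;> rfl))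
    h0 (funext fun a => congrFun hf (σ a)) gen hd pf inv (by
      rw [Phi_perm, show σ 0 = a from hσ 0, show σ 1 = b from hσ 1]
      exact mul_ne_zero sg hab)
  have h1 : Λ.plk (σ.symm 0, σ.symm 1) ≠ 0 :=
    Fano21.SmC.pl_ne ⟨hG'.1, hG'.2⟩ (genPt hG' Λ) (σ.symm.injective.ne (by decide))
  rw [e, Pi.smul_apply, Phi_perm σ _ _ (σ.symm 0), σ.apply_symm_apply, σ.apply_symm_apply] at h1
  exact right_ne_zero_of_mul (right_ne_zero_of_mul h1)

end main

theorem val_of_mx {ι : Type} [Fintype ι] {s : ι → L} (h0 : s ≠ 0) {V : RZ ℂ L} {γ : V.1.ValueGroup}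
    (h : Mx V.1.valuation s γ) : (mxf ℂ s).val V = γ :=
  Mx.unique ⟨fun i => mem_Sec_mxf s i V, exists_val_mxf (Function.ne_iff.1 h0) V⟩ h

/-- **the map of Beauville and Donagi** -/
theorem pfStmt : PfStmt := by
  intro ω hs hG hl hc F L _ _ _ _ _ P ι τ hd hP gen pf inv
  obtain ⟨f, rfl, hf⟩ := exists_fr hs hP
  have h01 := Phi_ne hs hG hl hc hP.ne hf gen hd pf inv
  obtain ⟨Λ, h1, h2, h3⟩ := exists_lines hs (noRk2_of_sm hs hG.2) hl hc hP.ne hf gen hd pf inv h01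
  have hw : ∀ α : F →ₐ[ℂ] L, w ω (α ∘ f 0) (α ∘ f 1) = 0 :=
    fun α => by rw [← map_w, hf]; ext; simp
  have hne := wd_ne hP.ne gen (tb_pf hd pf).2
  have hz : ∀ α : F →ₐ[ℂ] L, (fun i => α (wd (f 0) (f 1) i)) = wd (α ∘ f 0) (α ∘ f 1) :=
    fun α => (alg_wd α _ _).symm
  refine ⟨Λ, h1, h2, _, inv_ne_zero h01, ?_, ext' fun V => ?_⟩
  · rw [map_inv₀, ← inv_neg]
    exact congrArg _ (congrFun (tau_Phi hs inv) (0, 1))
  obtain ⟨a, b, e, m1, m2, m3, m4⟩ := mx_Phi hs hl hc V.1 V.2 (p := fun l => ι ∘ f l)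
    (q := fun l => τ.comp ι ∘ f l) (hw _) (hw _) hne
  have v1 := val_of_mx (fun h0 => hne (by rw [h0]; ext; simp [wd])) m1
  have v2 := val_of_mx (fun h0 => hne (by rw [h0]; ext; simp [wd])) m2
  have v3 := val_of_mx hne m3
  have n3 : a * b * e ≠ 0 := v3 ▸ val_ne _ V
  have v4 : (mxf ℂ Λ.plk).val V = V.v (Phi ω (fun l => ι ∘ f l) (fun l => τ.comp ι ∘ f l) (0, 1))⁻¹ *
      (a ^ 2 * b ^ 2 * e ^ 5) := by
    rw [h3]
    refine val_of_mx (smul_ne_zero (inv_ne_zero h01) fun h0 => h01 (congrFun h0 _))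
      ⟨fun i => ?_, m4.2.imp fun i hi => ?_⟩ <;> rw [Pi.smul_apply, smul_eq_mul, map_mul]
    · exact mul_le_mul_right (m4.1 i) _
    · rw [hi]
  simp only [dgl, pb_mxf, val_add, val_sub, val_nsmul, val_pr (inv_ne_zero h01), hz]
  rw [show St91.wd (wd (ι ∘ f 0) (ι ∘ f 1)) (wd (τ.comp ι ∘ f 0) (τ.comp ι ∘ f 1)) = wd _ _ from rfl,
    v4, v1, v2, v3]
  have na := left_ne_zero_of_mul (left_ne_zero_of_mul n3)
  have nb := right_ne_zero_of_mul (left_ne_zero_of_mul n3)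
  have ne := right_ne_zero_of_mul n3
  field_simp

end Crest.Agent.X262.Pf19
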