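import Crest.Agent.X262.Pf19.Defs

/-!
# Row 262, PF (helper19), part 2: the Beauville-Donagi map at a valuation

* `li_r`, `li_four` : two distinct planes of the surface span a four-dimensional space;
* `core`            : the normal form over a valuation ring;
* `mx_Phi`          : `|Φ| = |P|² |Q|² (|P ∧ Q| / |P| |Q|)⁵`.
-/

set_option autoImplicit false

noncomputable section

namespace Crest.Agent.X262.Pf19

variable {ω : Om}

section wd

variable {A ι : Type} [CommRing A]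

theorem map_wd {B : Type} [CommRing B] (f : A →+* B) (u v : ι → A) :
    f ∘ wd u v = wd (f ∘ u) (f ∘ v) := by
  ext ij
  simp [wd]

theorem wd_comb (u v : ι → A) (a b c d : A) :
    wd (a • u + b • v) (c • u + d • v) = (a * d - b * c) • wd u v := by
  ext ij
  simp only [wd, Pi.add_apply, Pi.smul_apply, smul_eq_mul]
  ring

theorem wd_smul (u v : ι → A) (a b : A) : wd (a • u) (b • v) = (a * b) • wd u v := by
  ext ij
  simp only [wd, Pi.smul_apply, smul_eq_mul]
  ring

theorem wd_ne_iff {K : Type} [Field K] {u v : ι → K} :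
    wd u v ≠ 0 ↔ ∀ s t : K, s • u + t • v = 0 → s = 0 ∧ t = 0 := by
  refine ⟨fun h s t e => ?_, fun h h0 => ?_⟩
  · have h1 := wd_comb u v s t 0 1
    have h2 := wd_comb u v 1 0 s t
    have z1 : ∀ x : ι → K, wd 0 x = 0 := fun x => by ext; simp [wd]
    have z2 : ∀ x : ι → K, wd x 0 = 0 := fun x => by ext; simp [wd]
    rw [e, z1] at h1
    rw [e, z2] at h2
    exact ⟨by simpa [h] using h1.symm, by simpa [h] using h2.symm⟩
  · have h1 : ∀ i, v i = 0 ∧ -u i = 0 := fun i => h _ _ (by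
      ext j
      have := congrFun h0 (j, i)
      simp only [wd, Pi.zero_apply] at this
      simp only [Pi.add_apply, Pi.smul_apply, smul_eq_mul, Pi.zero_apply]
      linear_combination this)
    exact one_ne_zero (h 0 1 (by ext i; simp [(h1 i).1])).2

end wd

/-- `p` has an identity block, `r` vanishes there, `q = α p + e r` -/
structure NF {A : Type} [CommRing A] (i j : Fin 6) (p q r : Fin 2 → Fin 6 → A)
    (α : Fin 2 → Fin 2 → A) (e : A) : Prop where
  p0i : p 0 i = 1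
  p0j : p 0 j = 0
  p1i : p 1 i = 0
  p1j : p 1 j = 1
  ri : ∀ l, r l i = 0
  rj : ∀ l, r l j = 0
  eq : ∀ l, q l = α l 0 • p 0 + α l 1 • p 1 + e • r l

/-- the relation between the six vectors -/
def bet {A : Type} [CommRing A] (α : Fin 2 → Fin 2 → A) (e : A) : Fin 6 → A :=
  ![0, -α 1 0, α 0 0, -α 1 1, α 0 1, e]

section NF

variable {i j : Fin 6}

theorem NF.map {A B : Type} [CommRing A] [CommRing B] (f : A →+* B) {p q r : Fin 2 → Fin 6 → A}
    {α : Fin 2 → Fin 2 → A} {e : A} (h : NF i j p q r α e) :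
    NF i j (fun l => f ∘ p l) (fun l => f ∘ q l) (fun l => f ∘ r l) (fun l => f ∘ α l) (f e) :=
  ⟨by simp [h.p0i], by simp [h.p0j], by simp [h.p1i], by simp [h.p1j], by simp [h.ri],
    by simp [h.rj], fun l => by ext k; simp [h.eq l]⟩

theorem NF.rel {A : Type} [CommRing A] [Algebra ℂ A] {p q r : Fin 2 → Fin 6 → A}
    {α : Fin 2 → Fin 2 → A} {e : A} (h : NF i j p q r α e) (hs : Skew ω)
    (hp : w ω (p 0) (p 1) = 0) :
    w ω (q 0) (q 1) = e • ∑ n, bet α e n • cols ω ![p 0, p 1, r 0, r 1] n := by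
  have h1 : w ω (p 1) (p 0) = 0 := by rw [hs.swap, hp, neg_zero]
  simp only [h.eq, map_add, map_smul, LinearMap.add_apply, LinearMap.smul_apply, hs.self, hp, h1,
    hs.swap (p 0) (r 0), hs.swap (p 1) (r 0), Fin.sum_univ_six, bet, cols]
  simp
  module

variable {K : Type} [Field K] [Algebra ℂ K] {p q r : Fin 2 → Fin 6 → K} {α : Fin 2 → Fin 2 → K}
  {e : K}

theorem NF.li_r (h : NF i j p q r α e) (hs : Skew ω) (hl : NoLine K ω) (hp : w ω (p 0) (p 1) = 0)
    (hq : wd (q 0) (q 1) ≠ 0) (hr : ∃ l, r l ≠ 0)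
    (hb : ∑ n, bet α e n • cols ω ![p 0, p 1, r 0, r 1] n = 0) : wd (r 0) (r 1) ≠ 0 := by
  refine wd_ne_iff.2 fun s t e0 => by_contra fun hst => ?_
  have h1 : w ω (p 1) (p 0) = 0 := by rw [hs.swap, hp, neg_zero]
  set x := s * α 0 0 + t * α 1 0 with hx
  set y := s * α 0 1 + t * α 1 1 with hy
  have hu : s • q 0 + t • q 1 = x • p 0 + y • p 1 := by
    rw [h.eq, h.eq, hx, hy]
    linear_combination (norm := module) e • e0
  obtain ⟨x', y', hd⟩ : ∃ x' y', x * y' - y * x' ≠ 0 := by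
    by_cases h0 : x = 0
    · refine ⟨1, 0, fun h2 => hst (wd_ne_iff.1 hq s t ?_)⟩
      rw [hu, h0, show y = 0 by linear_combination -h2, zero_smul, zero_smul, add_zero]
    · exact ⟨0, 1, by simpa using h0⟩
  have z : ∀ u, s • w ω u (r 0) + t • w ω u (r 1) = 0 := fun u => by
    rw [← map_smul, ← map_smul, ← map_add, e0, map_zero]
  have z0 := z (r 0)
  have z1 := z (r 1)
  rw [hs.self, smul_zero, zero_add] at z0
  rw [hs.self, smul_zero, add_zero, hs.swap, smul_neg, neg_eq_zero] at z1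
  simp only [Fin.sum_univ_six, bet, cols] at hb
  simp at hb
  obtain ⟨l, hl0⟩ := hr
  refine hl ![x • p 0 + y • p 1, x' • p 0 + y' • p 1, r l] (by simp [hs.self, hp, h1]) ?_ ?_
  · have a0 := z (p 0)
    have a1 := z (p 1)
    fin_cases l <;> simp [hx, hy]
    · linear_combination (norm := module) α 0 0 • a0 + α 0 1 • a1 - t • hb + e • z0
    · linear_combination (norm := module) α 1 0 • a0 + α 1 1 • a1 + s • hb - e • z1
  · refine Fintype.linearIndependent_iff.2 fun g hg => ?_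
    have c1 := congrFun hg i
    have c2 := congrFun hg j
    simp [Fin.sum_univ_three, h.p0i, h.p0j, h.p1i, h.p1j, h.ri, h.rj] at c1 c2
    have g0 : g 0 = 0 := (mul_eq_zero.1 (by linear_combination y' * c1 - x' * c2)).resolve_right hd
    have g1 : g 1 = 0 := (mul_eq_zero.1 (by linear_combination x * c2 - y * c1)).resolve_right hd
    have g2 : g 2 = 0 := by simpa [Fin.sum_univ_three, g0, g1, hl0] using hg
    intro n
    fin_cases n
    exacts [g0, g1, g2]

omit [Algebra ℂ K] in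
theorem NF.li_k (h : NF i j p q r α e) (hr : wd (r 0) (r 1) ≠ 0) :
    LinearIndependent K ![p 0, p 1, r 0, r 1] := by
  refine Fintype.linearIndependent_iff.2 fun g hg => ?_
  have c1 := congrFun hg i
  have c2 := congrFun hg j
  simp [Fin.sum_univ_four, h.p0i, h.p0j, h.p1i, h.p1j, h.ri, h.rj] at c1 c2
  obtain ⟨g2, g3⟩ := wd_ne_iff.1 hr (g 2) (g 3) (by simpa [Fin.sum_univ_four, c1, c2] using hg)
  intro n
  fin_cases n
  exacts [c1, c2, g2, g3]

omit [Algebra ℂ K] in
theorem NF.bet_ne (h : NF i j p q r α e) (hq : wd (q 0) (q 1) ≠ 0) : bet α e ≠ 0 := fun h0 => by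
  have h1 : α 0 0 = 0 := congrFun h0 2
  have h2 : α 0 1 = 0 := congrFun h0 4
  have h3 : e = 0 := congrFun h0 5
  exact one_ne_zero (wd_ne_iff.1 hq 1 0 (by simp [h.eq 0, h1, h2, h3])).1

/-- the relations between the six vectors form a plane -/
theorem NoConic.eq_zero (hc : NoConic K ω) {k : Fin 4 → Fin 6 → K} (hk : LinearIndependent K k)
    {β β' γ : Fin 6 → K} (h1 : ∑ n, β n • cols ω k n = 0) (h2 : ∑ n, β' n • cols ω k n = 0)
    (h3 : ∑ n, γ n • cols ω k n = 0) {m n : Fin 6} (hm : β m ≠ 0) (hm' : β' m = 0) (hn : β' n ≠ 0)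
    (g1 : γ m = 0) (g2 : γ n = 0) : γ = 0 := by
  obtain ⟨g, hg, l, hl⟩ := Fintype.not_linearIndependent_iff.1 (hc k hk ![β, β', γ] fun l => by
    fin_cases l
    exacts [h1, h2, h3])
  have c0 : g 0 = 0 := by simpa [Fin.sum_univ_three, hm, hm', g1] using congrFun hg m
  have c1 : g 1 = 0 := by simpa [Fin.sum_univ_three, c0, hn, g2] using congrFun hg n
  have c2 : g 2 ≠ 0 := fun c2 => by fin_cases l <;> contradiction
  simpa [Fin.sum_univ_three, c0, c1, c2] using hg

end NF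

theorem alt_update {A M : Type} [CommRing A] [AddCommGroup M] [Module A M] {n : ℕ}
    (f : M [⋀^Fin n]→ₗ[A] A) (c : Fin n → M) (m : Fin n) (t : Fin n → A) :
    f (Function.update c m (∑ l, t l • c l)) = t m * f c := by
  rw [f.map_update_sum, Finset.sum_eq_single m]
  · rw [f.map_update_smul, Function.update_eq_self, smul_eq_mul]
  · intro l _ hl
    rw [f.map_update_smul, f.map_update_self _ hl.symm, smul_zero]
  · simp

/-- some member is a unit -/
def Prim {A ι : Type} [CommRing A] (s : ι → A) : Prop := ∃ i, IsUnit (s i)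

section core

open IsLocalRing

variable {O : Type} [CommRing O] [IsDomain O] [ValuationRing O]

theorem prim_iff {ι : Type} {s : ι → O} : Prim s ↔ residue O ∘ s ≠ 0 := by
  simp [Prim, Function.ne_iff]

theorem exists_dvd {ι : Type} [Fintype ι] [Nonempty ι] (s : ι → O) : ∃ i, ∀ j, s i ∣ s j := by
  have key : ∀ t : Finset ι, t.Nonempty → ∃ i, ∀ j ∈ t, s i ∣ s j := fun t ht => by
    induction ht using Finset.Nonempty.cons_induction with
    | singleton a => exact ⟨a, by simp⟩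
    | cons a t _ _ ih =>
      obtain ⟨i, hi⟩ := ih
      rcases ValuationRing.dvd_total (s a) (s i) with h | h
      · exact ⟨a, Finset.forall_mem_cons _ _ |>.2 ⟨dvd_rfl, fun j hj => h.trans (hi j hj)⟩⟩
      · exact ⟨i, Finset.forall_mem_cons _ _ |>.2 ⟨h, hi⟩⟩
  simpa using key _ Finset.univ_nonempty

variable [Algebra ℂ O]

theorem core' (hs : Skew ω) (hl : NoLine ℂ ω) (hc : NoConic ℂ ω) {i j : Fin 6}
    {p q r : Fin 2 → Fin 6 → O} {α : Fin 2 → Fin 2 → O} {e : O} (h : NF i j p q r α e)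
    (he : e ≠ 0) (hr : ∃ l, Prim (r l)) (hp : w ω (p 0) (p 1) = 0) (hq : w ω (q 0) (q 1) = 0)
    (hQ : Prim (wd (q 0) (q 1))) :
    (∃ R, Prim R ∧ wd (wd (p 0) (p 1)) (wd (q 0) (q 1)) = e • R) ∧
      ∃ Ψ, Prim Ψ ∧ Phi ω p q = e ^ 5 • Ψ := by
  let ρ : O →ₐ[ℂ] ResidueField O := IsScalarTower.toAlgHom ℂ O _
  have h' := h.map (residue O)
  have hb : ∑ n, bet α e n • cols ω ![p 0, p 1, r 0, r 1] n = 0 :=
    (smul_eq_zero.1 ((h.rel hs hp).symm.trans hq)).resolve_left he
  have e1 : residue O ∘ bet α e = bet (fun l => residue O ∘ α l) (residue O e) := by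
    ext n
    fin_cases n <;> simp [bet]
  have e2 : ∀ n, residue O ∘ cols ω ![p 0, p 1, r 0, r 1] n = cols ω
      ![residue O ∘ p 0, residue O ∘ p 1, residue O ∘ r 0, residue O ∘ r 1] n := fun n => by
    refine (map_cols ρ _ n).trans (congrArg (cols ω · n) (funext fun l => ?_))
    fin_cases l <;> rfl
  have hb' : ∑ n, bet (fun l => residue O ∘ α l) (residue O e) n • cols ω
      ![residue O ∘ p 0, residue O ∘ p 1, residue O ∘ r 0, residue O ∘ r 1] n = 0 := by
    ext a
    simpa [← e1, ← e2] using congrArg (residue O) (congrFun hb a)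
  have hp' : w ω (residue O ∘ p 0) (residue O ∘ p 1) = 0 :=
    (map_w ρ _ _).symm.trans (by rw [hp]; ext; simp)
  have hQ' := prim_iff.1 hQ
  rw [map_wd] at hQ'
  have hr' := h'.li_r hs (hl.field _) hp' hQ' (hr.imp fun l hl => prim_iff.1 hl) hb'
  have hk := h'.li_k hr'
  have hβ := h'.bet_ne hQ'
  constructor
  · let R := (-α 1 0) • wd (p 0) (r 0) + α 0 0 • wd (p 0) (r 1) + (-α 1 1) • wd (p 1) (r 0) +
      α 0 1 • wd (p 1) (r 1) + e • wd (r 0) (r 1)
    refine ⟨wd (wd (p 0) (p 1)) R, ?_, ?_⟩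
    · by_contra hn
      have h0 : ∀ st, residue O (R st) = 0 := fun st => by
        have h1 := (residue_eq_zero_iff _).2 ((mem_maximalIdeal _).2 fun hu => hn ⟨((i, j), st), hu⟩)
        simpa [wd, R, h.p0i, h.p0j, h.p1i, h.p1j, h.ri, h.rj] using h1
      obtain ⟨a1, a2⟩ := wd_ne_iff.1 hr' (-residue O (α 1 0)) (residue O (α 0 0)) (funext fun s => by
        simpa [wd, R, h.p0i, h.p1i, h.ri] using h0 (i, s))
      obtain ⟨a3, a4⟩ := wd_ne_iff.1 hr' (-residue O (α 1 1)) (residue O (α 0 1)) (funext fun s => by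
        simpa [wd, R, h.p0j, h.p1j, h.rj] using h0 (j, s))
      rw [neg_eq_zero] at a1 a3
      have a5 : residue O e = 0 := by
        refine (smul_eq_zero.1 (funext fun st => ?_)).resolve_right hr'
        simpa [wd, R, a1, a2, a3, a4] using h0 st
      refine hβ (funext fun n => ?_)
      fin_cases n <;> simp [bet, a1, a2, a3, a4, a5]
    · ext ⟨ab, st⟩
      simp only [wd, R, h.eq, Pi.add_apply, Pi.smul_apply, smul_eq_mul]
      ring
  · let c : Fin 4 → Fin 6 → O := fun m => cols ω ![p 0, p 1, r 0, r 1] m.succ.castSucc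
    have h1 : w ω (p 1) (p 0) = 0 := by rw [hs.swap, hp, neg_zero]
    have hc4 : c4 ω p q = fun m => e • c m := funext fun m => by
      fin_cases m <;> simp [c4, c, cols, h.eq, hs.self, hp, h1]
    have hPhi : Phi ω p q = e ^ 4 • mn (n := 4) c := funext fun ab => by
      rw [Phi, hc4, mn, AlternatingMap.map_smul_univ]
      simp [mn]
    have z0 : ∑ n, (Pi.single 0 1 : Fin 6 → ResidueField O) n • cols ω
        ![residue O ∘ p 0, residue O ∘ p 1, residue O ∘ r 0, residue O ∘ r 1] n = 0 := by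
      simpa [Pi.single_apply, cols] using hp'
    have pr : ∀ c' : Fin 4 → Fin 6 → O,
        LinearIndependent (ResidueField O) (fun m => residue O ∘ c' m) → Prim (mn (n := 4) c') :=
      fun c' hc' => prim_iff.2 (by
        rw [map_mn]
        exact Function.ne_iff.2 (exists_mn_ne (n := 4) hc'))
    obtain ⟨n, hn⟩ := Function.ne_iff.1 hβ
    have A := fun γ h3 => (hc.field _).eq_zero hk (γ := γ) z0 hb' h3 (m := 0) (n := n) (by simp)
      (by simp [bet]) hn
    suffices ∃ Ψ, Prim Ψ ∧ mn (n := 4) c = e • Ψ by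
      obtain ⟨Ψ, h2, h3⟩ := this
      exact ⟨Ψ, h2, by rw [hPhi, h3, smul_smul, ← pow_succ]⟩
    rw [← e1] at hn
    obtain ⟨b, hb1⟩ := ((residue_ne_zero_iff_isUnit _).1 hn).exists_left_inv
    simp only [Fin.sum_univ_six] at hb
    revert A hb1
    refine Fin.cases (fun _ hb1 => by simp [bet] at hb1)
      (fun n => Fin.lastCases (fun A hb1 => ?_) (fun m A hb1 => ?_) n) n
    · have hb2 : b * e = 1 := hb1
      obtain ⟨ab, hab⟩ := pr c (Fintype.linearIndependent_iff.2 fun g hg m => by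
        have := A ![0, g 0, g 1, g 2, g 3, 0] (by
          simpa [Fin.sum_univ_six, Fin.sum_univ_four, c, e2] using hg) rfl rfl
        fin_cases m
        exacts [congrFun this 1, congrFun this 2, congrFun this 3, congrFun this 4])
      exact ⟨b • mn (n := 4) c, ⟨ab, (IsUnit.of_mul_eq_one _ hb2).mul hab⟩,
        by rw [smul_smul, mul_comm, hb2, one_smul]⟩
    · let c' := Function.update c m (cols ω ![p 0, p 1, r 0, r 1] 5)
      let t : Fin 4 → O := Function.update (fun l => -b * bet α e l.succ.castSucc) m (-b * e)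
      have h2 : Function.update c' m (∑ l, t l • c' l) = c := by
        rw [Function.update_idem, Function.update_eq_self_iff]
        fin_cases m <;> simp [bet, cols, hp, c, c', t, Fin.sum_univ_four] at hb hb1 ⊢
        · linear_combination (norm := module) (-b) • hb + hb1 • w ω (p 0) (r 0)
        · linear_combination (norm := module) (-b) • hb + hb1 • w ω (p 0) (r 1)
        · linear_combination (norm := module) (-b) • hb + hb1 • w ω (p 1) (r 0)
        · linear_combination (norm := module) (-b) • hb + hb1 • w ω (p 1) (r 1)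
      obtain ⟨ab, hab⟩ := pr c' (Fintype.linearIndependent_iff.2 fun g hg l => by
        let g' := Function.update g m 0
        have := A ![0, g' 0, g' 1, g' 2, g' 3, g m] (by
          simp only [Fin.sum_univ_six, ← e2]
          fin_cases m <;> simp [Fin.sum_univ_four, c, c', g'] at hg ⊢ <;> rw [← hg] <;> abel) rfl (by fin_cases m <;> simp [g'])
        by_cases hl : l = m
        · exact hl ▸ congrFun this 5
        · rw [← Function.update_of_ne hl 0 g]
          fin_cases l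
          exacts [congrFun this 1, congrFun this 2, congrFun this 3, congrFun this 4])
      refine ⟨(-b) • mn (n := 4) c', ⟨ab, (IsUnit.of_mul_eq_one _ hb1).neg.mul hab⟩,
        funext fun ab => ?_⟩
      rw [← h2, mn, alt_update]
      simp [t, mn]
      ring

theorem core (hs : Skew ω) (hl : NoLine ℂ ω) (hc : NoConic ℂ ω) {i j : Fin 6}
    {p q : Fin 2 → Fin 6 → O} (h1 : p 0 i = 1) (h2 : p 0 j = 0) (h3 : p 1 i = 0) (h4 : p 1 j = 1)
    (hp : w ω (p 0) (p 1) = 0) (hq : w ω (q 0) (q 1) = 0) (hQ : Prim (wd (q 0) (q 1)))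
    (hne : wd (wd (p 0) (p 1)) (wd (q 0) (q 1)) ≠ 0) :
    ∃ e : O, (∃ R, Prim R ∧ wd (wd (p 0) (p 1)) (wd (q 0) (q 1)) = e • R) ∧
      ∃ Ψ, Prim Ψ ∧ Phi ω p q = e ^ 5 • Ψ := by
  let r' : Fin 2 × Fin 6 → O := fun lk => q lk.1 lk.2 - q lk.1 i * p 0 lk.2 - q lk.1 j * p 1 lk.2
  obtain ⟨lk, hd⟩ := exists_dvd r'
  choose r hr using hd
  have hq' : ∀ l, q l = q l i • p 0 + q l j • p 1 + r' lk • fun k => r (l, k) := fun l => by
    ext k
    simp only [Pi.add_apply, Pi.smul_apply, smul_eq_mul, ← hr, r']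
    ring
  have he : r' lk ≠ 0 := fun h0 => hne (by
    rw [hq' 0, hq' 1, h0, zero_smul, zero_smul, add_zero, add_zero, wd_comb]
    ext
    simp only [wd, Pi.smul_apply, smul_eq_mul, Pi.zero_apply]
    ring)
  exact ⟨_, core' hs hl hc (α := fun l => ![q l i, q l j]) (r := fun l k => r (l, k))
    ⟨h1, h2, h3, h4, fun l => mul_left_cancel₀ he (by rw [← hr]; simp [r', h1, h3]),
      fun l => mul_left_cancel₀ he (by rw [← hr]; simp [r', h2, h4]), hq'⟩ he
    ⟨lk.1, lk.2, by
      change IsUnit (r (lk.1, lk.2))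
      rw [show r (lk.1, lk.2) = 1 from mul_left_cancel₀ he (by rw [← hr, mul_one])]
      exact isUnit_one⟩ hp hq hQ⟩

end core

/-! ### arbitrary frames -/

section val

variable {L : Type} [Field L]

/-- `γ` is the largest value of the family -/
def Mx {Γ ι : Type} [LinearOrderedCommGroupWithZero Γ] (v : Valuation L Γ) (s : ι → L) (γ : Γ) :
    Prop := (∀ i, v (s i) ≤ γ) ∧ ∃ i, v (s i) = γ

theorem Mx.unique {Γ ι : Type} [LinearOrderedCommGroupWithZero Γ] {v : Valuation L Γ} {s : ι → L}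
    {γ γ' : Γ} (h : Mx v s γ) (h' : Mx v s γ') : γ = γ' :=
  le_antisymm (h.2.elim fun i e => e ▸ h'.1 i) (h'.2.elim fun i e => e ▸ h.1 i)

theorem mx_prim (V : ValuationSubring L) {ι : Type} {s : ι → V} (h : Prim s) (c : L) :
    Mx V.valuation (c • (V.subtype ∘ s)) (V.valuation c) := by
  refine ⟨fun i => ?_, h.imp fun i hi => ?_⟩ <;> rw [Pi.smul_apply, smul_eq_mul, map_mul]
  · exact mul_le_of_le_one_right' (V.valuation_le_one _)
  · rw [Function.comp_apply, V.subtype_apply, (V.valuation_eq_one_iff _).1 hi, mul_one]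

/-- an integral frame with an identity block -/
theorem exists_frame (V : ValuationSubring L) {p : Fin 2 → Fin 6 → L} (h : wd (p 0) (p 1) ≠ 0) :
    ∃ (i j : Fin 6) (p' : Fin 2 → Fin 6 → V), p' 0 i = 1 ∧ p' 0 j = 0 ∧ p' 1 i = 0 ∧ p' 1 j = 1 ∧
      wd (p 0) (p 1) (i, j) ≠ 0 ∧
      ∀ l, p l = p l i • (V.subtype ∘ p' 0) + p l j • (V.subtype ∘ p' 1) := by
  obtain ⟨⟨i, j⟩, hm⟩ := Finite.exists_max fun ij => V.valuation (wd (p 0) (p 1) ij)
  have h0 : wd (p 0) (p 1) (i, j) ≠ 0 := fun h0 => h (funext fun ij => by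
    simpa [h0] using hm ij)
  have key : ∀ ab, wd (p 0) (p 1) ab / wd (p 0) (p 1) (i, j) ∈ V := fun ab => by
    rw [← V.valuation_le_one_iff, map_div₀]
    exact div_le_one_of_le₀ (hm ab) zero_le
  refine ⟨i, j, ![fun k => ⟨_, key (k, j)⟩, fun k => ⟨_, key (i, k)⟩],
    Subtype.ext (div_self h0), Subtype.ext (by simp [wd]),
    Subtype.ext (by simp [wd]), Subtype.ext (div_self h0), h0, fun l => ?_⟩
  ext k
  change _ = p l i * (wd (p 0) (p 1) (k, j) / wd (p 0) (p 1) (i, j)) +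
    p l j * (wd (p 0) (p 1) (i, k) / wd (p 0) (p 1) (i, j))
  field_simp
  fin_cases l <;> simp [wd] <;> ring

variable [Algebra ℂ L]

theorem Phi_comb {A : Type} [CommRing A] [Algebra ℂ A] (p q : Fin 2 → Fin 6 → A)
    (a b c d : Fin 2 → A) :
    Phi ω (fun l => a l • p 0 + b l • p 1) (fun l => c l • q 0 + d l • q 1) =
      ((a 0 * b 1 - b 0 * a 1) ^ 2 * (c 0 * d 1 - d 0 * c 1) ^ 2) • Phi ω p q := by
  have h := mn_mul (n := 4) !![a 0 * c 0, a 0 * d 0, b 0 * c 0, b 0 * d 0;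
    a 0 * c 1, a 0 * d 1, b 0 * c 1, b 0 * d 1; a 1 * c 0, a 1 * d 0, b 1 * c 0, b 1 * d 0;
    a 1 * c 1, a 1 * d 1, b 1 * c 1, b 1 * d 1] (c4 ω p q)
  rw [Phi, Phi]
  convert h using 2
  · funext m
    fin_cases m <;> simp [c4, Fin.sum_univ_four] <;> module
  · simp [Matrix.det_succ_row_zero, Fin.sum_univ_succ, Fin.succAbove]
    ring

/-- **the Beauville-Donagi map at a valuation** -/
theorem mx_Phi (hs : Skew ω) (hl : NoLine ℂ ω) (hc : NoConic ℂ ω) (V : ValuationSubring L)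
    (hV : ∀ c : ℂ, algebraMap ℂ L c ∈ V) {p q : Fin 2 → Fin 6 → L} (hp : w ω (p 0) (p 1) = 0)
    (hq : w ω (q 0) (q 1) = 0) (hne : wd (wd (p 0) (p 1)) (wd (q 0) (q 1)) ≠ 0) :
    ∃ a b e : V.ValueGroup, Mx V.valuation (wd (p 0) (p 1)) a ∧ Mx V.valuation (wd (q 0) (q 1)) b ∧
      Mx V.valuation (wd (wd (p 0) (p 1)) (wd (q 0) (q 1))) (a * b * e) ∧
      Mx V.valuation (Phi ω p q) (a ^ 2 * b ^ 2 * e ^ 5) := by
  let _ : Algebra ℂ V := ((algebraMap ℂ L).codRestrict V hV).toAlgebra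
  let f : V →ₐ[ℂ] L := ⟨V.subtype, fun _ => rfl⟩
  obtain ⟨i, j, p', a1, a2, a3, a4, a5, a6⟩ := exists_frame V (p := p) fun h0 => hne (by
    rw [h0]; ext; simp [wd])
  obtain ⟨k, l, q', b1, b2, b3, b4, b5, b6⟩ := exists_frame V (p := q) fun h0 => hne (by
    rw [h0]; ext; simp [wd])
  have key : ∀ {p : Fin 2 → Fin 6 → L} {p' : Fin 2 → Fin 6 → V} {i j : Fin 6},
      wd (p 0) (p 1) (i, j) ≠ 0 → w ω (p 0) (p 1) = 0 →
      (∀ l, p l = p l i • (V.subtype ∘ p' 0) + p l j • (V.subtype ∘ p' 1)) →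
      wd (p 0) (p 1) = wd (p 0) (p 1) (i, j) • (V.subtype ∘ wd (p' 0) (p' 1)) ∧
        w ω (p' 0) (p' 1) = 0 := by
    intro p p' i j h0 h1 h2
    constructor
    · conv_lhs => rw [h2 0, h2 1, wd_comb, ← map_wd]
      rfl
    · rw [h2 0, h2 1] at h1
      simp only [map_add, map_smul, LinearMap.add_apply, LinearMap.smul_apply, hs.self,
        hs.swap (V.subtype ∘ p' 0) (V.subtype ∘ p' 1)] at h1
      have h3 : wd (p 0) (p 1) (i, j) • (f ∘ w ω (p' 0) (p' 1)) = 0 := by
        rw [map_w, wd]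
        change _ • w ω (V.subtype ∘ p' 0) (V.subtype ∘ p' 1) = 0
        linear_combination (norm := module) h1
      exact funext fun a => Subtype.ext (congrFun ((smul_eq_zero.1 h3).resolve_left h0) a)
  obtain ⟨c1, c2⟩ := key a5 hp a6
  obtain ⟨d1, d2⟩ := key b5 hq b6
  set A := wd (p 0) (p 1) (i, j)
  set B := wd (q 0) (q 1) (k, l)
  have e1 : wd (wd (p 0) (p 1)) (wd (q 0) (q 1)) =
      (A * B) • (V.subtype ∘ wd (wd (p' 0) (p' 1)) (wd (q' 0) (q' 1))) := by
    rw [c1, d1, wd_smul, ← map_wd]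
  have e2 : Phi ω p q = (A ^ 2 * B ^ 2) • (V.subtype ∘ Phi ω p' q') := by
    conv_lhs => rw [funext a6, funext b6]
    exact (Phi_comb (fun l => V.subtype ∘ p' l) (fun l => V.subtype ∘ q' l) _ _ _ _).trans
      (congrArg _ (map_Phi f p' q').symm)
  have hP : Prim (wd (p' 0) (p' 1)) := ⟨(i, j), by simp [wd, a1, a2, a3, a4]⟩
  have hQ : Prim (wd (q' 0) (q' 1)) := ⟨(k, l), by simp [wd, b1, b2, b3, b4]⟩
  obtain ⟨e, ⟨R, r1, r2⟩, Ψ, s1, s2⟩ := core hs hl hc a1 a2 a3 a4 c2 d2 hQ fun h0 => hne (by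
    rw [e1, h0]; ext; simp)
  have m : ∀ {ι : Type} (c : V) (s : ι → V), V.subtype ∘ (c • s) = (c : L) • (V.subtype ∘ s) :=
    fun _ _ => rfl
  refine ⟨_, _, V.valuation e, c1 ▸ mx_prim V hP A, d1 ▸ mx_prim V hQ B, ?_, ?_⟩
  · rw [e1, r2, m, smul_smul, ← map_mul, ← map_mul]
    exact mx_prim V r1 _
  · rw [e2, s2, m, smul_smul, ← map_pow, ← map_pow, ← map_pow, ← map_mul, ← map_mul]
    exact mx_prim V s1 _

end val

end Crest.Agent.X262.Pf19
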